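import Vale.Agent.P132.H723.AvgMain

/-!
# P132: the commutator estimate
-/

open Filter Topology
open scoped ComplexConjugate InnerProductSpace

namespace Vale.Agent.P132

universe u

variable {H : Type u} [NormedAddCommGroup H] [InnerProductSpace ℂ H] [CompleteSpace H]

namespace PD

variable {M : VonNeumannAlgebra H} {φ : (H →L[ℂ] H) → ℂ}

theorem ac_scale (hφ : IsNormalState M φ) {δ : ℝ} {u : H →L[ℂ] H}
    (hu : u ∈ almostCentralizing M φ δ) {y : H →L[ℂ] H} (hy : y ∈ M) :
    ‖φ (y * u) - φ (u * y)‖ ≤ δ * ‖y‖ := by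
  obtain ⟨V, hV1, hV⟩ := exists_vec hφ
  rcases eq_or_ne y 0 with h0 | h0
  · subst h0
    have h1 : φ (0 : H →L[ℂ] H) = 0 := by
      rw [hV 0 (zero_mem M), amp_zero]; simp
    simp [h1]
  · have hy0 : 0 < ‖y‖ := norm_pos_iff.2 h0
    have h1 : ((‖y‖⁻¹ : ℝ) : ℂ) • y ∈ M := M.toStarSubalgebra.smul_mem hy _
    have h2 := hu.2.2 _ h1 (by
      rw [norm_smul, Complex.norm_real, norm_inv, norm_norm, inv_mul_cancel₀ hy0.ne'])
    have h3 : φ (((‖y‖⁻¹ : ℝ) : ℂ) • y * u) = ((‖y‖⁻¹ : ℝ) : ℂ) * φ (y * u) := by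
      rw [smul_mul_assoc, hV _ (M.toStarSubalgebra.smul_mem (mul_mem hy hu.1) _), amp_smul,
        smul_apply, inner_smul_right, hV _ (mul_mem hy hu.1)]
    have h4 : φ (u * (((‖y‖⁻¹ : ℝ) : ℂ) • y)) = ((‖y‖⁻¹ : ℝ) : ℂ) * φ (u * y) := by
      rw [mul_smul_comm, hV _ (M.toStarSubalgebra.smul_mem (mul_mem hu.1 hy) _), amp_smul,
        smul_apply, inner_smul_right, hV _ (mul_mem hu.1 hy)]
    rw [h3, h4, ← mul_sub, norm_mul, Complex.norm_real, norm_inv, norm_norm,
      inv_mul_le_iff₀ hy0] at h2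
    linarith

/-- **Commutator estimate.** -/
theorem comm_estimate (hM : IsTypeIIIOneFactor M) (hφ : IsNormalState M φ)
    (hf : IsFaithful M φ) {a : H →L[ℂ] H} (ha : a ∈ M) {δ ε : ℝ} (hδ : 0 < δ) (hε : 0 < ε) :
    ∃ u ∈ almostCentralizing M φ δ,
      2 * (φ (star (a - φ a • 1) * (a - φ a • 1))).re - ε ≤
        (φ (star (u * a - a * u) * (u * a - a * u))).re := by
  obtain ⟨V, hV1, hV⟩ := exists_vec hφ
  have h1M : φ a • (1 : H →L[ℂ] H) ∈ M := M.toStarSubalgebra.smul_mem (one_mem M) _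
  set b : H →L[ℂ] H := a - φ a • 1 with hb
  have hbM : b ∈ M := sub_mem ha h1M
  have hφb : φ b = 0 := by rw [hb, state_sub_smul_one hφ ha, sub_self]
  have hcomm : ∀ u : H →L[ℂ] H, u * a - a * u = u * b - b * u := by
    intro u
    rw [hb, mul_sub, sub_mul]
    simp
  have hns : ∀ x ∈ M, (φ (star x * x)).re = ‖amp x V‖ ^ 2 := by
    intro x hx
    rw [hV _ (mul_mem (star_mem hx) hx), amp_mul, amp_star, Cmp.inner_star_mul_self]
    norm_cast
  set δ' : ℝ := min δ (ε / (12 * (‖b‖ ^ 2 + 1))) with hδ'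
  have hδ'0 : 0 < δ' := lt_min hδ (by positivity)
  have hδ'1 : 3 * (δ' * ‖b‖ ^ 2) ≤ ε / 4 := by
    have h1 : δ' ≤ ε / (12 * (‖b‖ ^ 2 + 1)) := min_le_right _ _
    calc 3 * (δ' * ‖b‖ ^ 2) ≤ 3 * (ε / (12 * (‖b‖ ^ 2 + 1)) * (‖b‖ ^ 2 + 1)) := by
          gcongr
          linarith
      _ = ε / 4 := by field_simp; norm_num
  obtain ⟨n, c, u, hc0, hc1, hu, hsum⟩ := exists_averaging_state hM hφ hf
    (ι := Unit) (x := fun _ => b) (fun _ => hbM) hδ'0
    (ε := (ε / (4 * (‖b‖ + 1))) ^ 2) (by positivity)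
  have hA := hsum ()
  simp only [hφb, zero_smul, sub_zero] at hA
  set A : H →L[ℂ] H := ∑ i, (c i : ℂ) • (u i * b * star (u i)) with hAdef
  have hAM : A ∈ M := sum_mem fun i _ => M.toStarSubalgebra.smul_mem
    (mul_mem (mul_mem (hu i).1 hbM) (star_mem (hu i).1)) _
  have hA1 : ‖amp A V‖ ≤ ε / (4 * (‖b‖ + 1)) := by
    have h1 : ‖amp A V‖ ^ 2 ≤ (ε / (4 * (‖b‖ + 1))) ^ 2 := by
      rw [← hns A hAM]
      exact (Complex.re_le_norm _).trans hA
    exact (pow_le_pow_iff_left₀ (norm_nonneg _) (by positivity) two_ne_zero).1 h1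
  have hbV : ‖amp b V‖ ≤ ‖b‖ := by
    refine ((amp b).le_opNorm V).trans ?_
    rw [hV1, mul_one]; exact norm_amp_le b
  -- the estimate for each unitary
  have key : ∀ i, 2 * ‖amp b V‖ ^ 2 - 3 * (δ' * ‖b‖ ^ 2) - 2 * (φ (u i * star b * star (u i) * b)).re
      ≤ ‖amp (u i * b - b * u i) V‖ ^ 2 := by
    intro i
    have huM := (hu i).1
    have huu := (hu i).2.1
    have hun := norm_unitary_le_one huu
    have hun' := norm_unitary_le_one (star_mem_unitary huu)
    have e0 : amp (u i * b - b * u i) V = amp (u i * b) V - amp (b * u i) V := by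
      ext j
      show (u i * b - b * u i) (V j) = (u i * b) (V j) - (b * u i) (V j)
      simp
    have e1 : ‖amp (u i * b) V‖ ^ 2 = ‖amp b V‖ ^ 2 := by
      rw [← hns _ (mul_mem huM hbM), ← hns b hbM, star_mul]
      have : star b * star (u i) * (u i * b) = star b * (star (u i) * u i) * b := by
        simp only [mul_assoc]
      rw [this, (Unitary.mem_iff.1 huu).1, mul_one]
    have e2 : ‖amp b V‖ ^ 2 - δ' * ‖b‖ ^ 2 ≤ ‖amp (b * u i) V‖ ^ 2 := by
      rw [← hns _ (mul_mem hbM huM), ← hns b hbM, star_mul]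
      have h1 := ac_scale hφ (hu i) (y := star (u i) * (star b * b))
        (mul_mem (star_mem huM) (mul_mem (star_mem hbM) hbM))
      have h2 : u i * (star (u i) * (star b * b)) = star b * b := by
        rw [← mul_assoc, (Unitary.mem_iff.1 huu).2, one_mul]
      have h3 : star (u i) * (star b * b) * u i = star (u i) * star b * (b * u i) := by
        simp only [mul_assoc]
      rw [h2, h3] at h1
      have h4 : ‖star (u i) * (star b * b)‖ ≤ ‖b‖ ^ 2 := by
        calc ‖star (u i) * (star b * b)‖ ≤ ‖star (u i)‖ * (‖star b‖ * ‖b‖) :=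
              (norm_mul_le _ _).trans (mul_le_mul_of_nonneg_left (norm_mul_le _ _) (norm_nonneg _))
          _ ≤ 1 * (‖b‖ * ‖b‖) := by
              rw [norm_star b]; gcongr
          _ = ‖b‖ ^ 2 := by ring
      have h5 : ‖φ (star (u i) * star b * (b * u i)) - φ (star b * b)‖ ≤ δ' * ‖b‖ ^ 2 :=
        h1.trans (mul_le_mul_of_nonneg_left h4 hδ'0.le)
      have h6 := (abs_le.1 ((Complex.abs_re_le_norm _).trans h5)).1
      rw [Complex.sub_re] at h6
      linarith
    have e3 : (⟪amp (u i * b) V, amp (b * u i) V⟫_ℂ).re ≤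
        (φ (u i * star b * star (u i) * b)).re + δ' * ‖b‖ ^ 2 := by
      have h0 : ⟪amp (u i * b) V, amp (b * u i) V⟫_ℂ = φ (star b * star (u i) * b * u i) := by
        rw [hV _ (mul_mem (mul_mem (mul_mem (star_mem hbM) (star_mem huM)) hbM) huM)]
        have h1 : star b * star (u i) * b * u i = star (u i * b) * (b * u i) := by
          rw [star_mul]; simp only [mul_assoc]
        rw [h1, amp_mul (star (u i * b)) (b * u i), amp_star (u i * b), mul_apply_eq_comp,
          BC.inner_star']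
      have h1 := ac_scale hφ (hu i) (y := star b * star (u i) * b)
        (mul_mem (mul_mem (star_mem hbM) (star_mem huM)) hbM)
      have h4 : ‖star b * star (u i) * b‖ ≤ ‖b‖ ^ 2 := by
        calc ‖star b * star (u i) * b‖ ≤ ‖star b‖ * ‖star (u i)‖ * ‖b‖ :=
              (norm_mul_le _ _).trans (mul_le_mul_of_nonneg_right (norm_mul_le _ _) (norm_nonneg _))
          _ ≤ ‖b‖ * 1 * ‖b‖ := by
              rw [norm_star b]; gcongr
          _ = ‖b‖ ^ 2 := by ring
      have h5 : ‖φ (star b * star (u i) * b * u i) - φ (u i * (star b * star (u i) * b))‖ ≤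
          δ' * ‖b‖ ^ 2 := h1.trans (mul_le_mul_of_nonneg_left h4 hδ'0.le)
      have h6 := (Complex.re_le_norm _).trans h5
      rw [Complex.sub_re] at h6
      have h7 : u i * (star b * star (u i) * b) = u i * star b * star (u i) * b := by
        simp only [mul_assoc]
      rw [h7] at h6
      rw [h0]
      linarith
    have e4 := @norm_sub_sq ℂ (EllTwo H) _ _ _ (amp (u i * b) V) (amp (b * u i) V)
    have e5 : RCLike.re ⟪amp (u i * b) V, amp (b * u i) V⟫_ℂ =
        (⟪amp (u i * b) V, amp (b * u i) V⟫_ℂ).re := rfl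
    rw [e0, e4, e1, e5]
    linarith
  -- the average
  have havg : ∑ i, c i * (φ (u i * star b * star (u i) * b)).re ≤ ε / 4 := by
    have h1 : ⟪amp A V, amp b V⟫_ℂ = ∑ i, (c i : ℂ) * φ (u i * star b * star (u i) * b) := by
      have h2 : ⟪amp A V, amp b V⟫_ℂ = φ (star A * b) := by
        rw [hV _ (mul_mem (star_mem hAM) hbM), amp_mul, amp_star, mul_apply_eq_comp,
          BC.inner_star']
      have h3 : star A * b = ∑ i, (c i : ℂ) • (u i * star b * star (u i) * b) := by
        rw [hAdef, star_sum, Finset.sum_mul]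
        refine Finset.sum_congr rfl fun i _ => ?_
        have h4 : star (c i : ℂ) = (c i : ℂ) := by simp
        rw [star_smul, star_mul, star_mul, star_star, smul_mul_assoc, h4]
        simp only [mul_assoc]
      rw [h2, h3, state_comb hφ c (fun i => u i * star b * star (u i) * b)
        (fun i => mul_mem (mul_mem (mul_mem (hu i).1 (star_mem hbM)) (star_mem (hu i).1)) hbM)]
    have h2 : ∑ i, c i * (φ (u i * star b * star (u i) * b)).re = (⟪amp A V, amp b V⟫_ℂ).re := by
      rw [h1, Complex.re_sum]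
      refine Finset.sum_congr rfl fun i _ => ?_
      rw [Complex.re_ofReal_mul]
    rw [h2]
    refine (Complex.re_le_norm _).trans ((norm_inner_le_norm _ _).trans ?_)
    calc ‖amp A V‖ * ‖amp b V‖ ≤ ε / (4 * (‖b‖ + 1)) * (‖b‖ + 1) := by
          gcongr
          linarith
      _ = ε / 4 := by field_simp
  rw [hns b hbM]
  by_contra hcon
  push Not at hcon
  have hlt : ∀ i, ‖amp (u i * b - b * u i) V‖ ^ 2 < 2 * ‖amp b V‖ ^ 2 - ε := by
    intro i
    have h1 := hcon (u i) ⟨(hu i).1, (hu i).2.1, fun y hy hy1 =>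
      ((hu i).2.2 y hy hy1).trans (min_le_left _ _)⟩
    rw [hcomm, hns _ (sub_mem (mul_mem (hu i).1 hbM) (mul_mem hbM (hu i).1))] at h1
    exact h1
  have hfin : ∀ i, c i * (2 * ‖amp b V‖ ^ 2 - 3 * (δ' * ‖b‖ ^ 2)) -
      2 * (c i * (φ (u i * star b * star (u i) * b)).re) ≤ c i * (2 * ‖amp b V‖ ^ 2 - ε) := by
    intro i
    have h1 := mul_le_mul_of_nonneg_left ((key i).trans (hlt i).le) (hc0 i)
    linarith
  have hS := Finset.sum_le_sum fun i (_ : i ∈ Finset.univ) => hfin i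
  rw [Finset.sum_sub_distrib, ← Finset.sum_mul, ← Finset.mul_sum, ← Finset.sum_mul, hc1] at hS
  linarith

end PD

end Vale.Agent.P132
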