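import Vale.Agent.P132.H723.AvgPredual

/-!
# P132: the averaging theorem
-/

open Filter Topology
open scoped ComplexConjugate InnerProductSpace

namespace Vale.Agent.P132

universe u

variable {H : Type u} [NormedAddCommGroup H] [InnerProductSpace ℂ H] [CompleteSpace H]

namespace PD

theorem decomp {ι κ A B : Type*} [Fintype ι] [Fintype κ] [NormedAddCommGroup A] [NormedSpace ℂ A]
    [NormedAddCommGroup B] [NormedSpace ℂ B] (F : ((ι → A) × (κ → B)) →L[ℂ] ℂ) :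
    ∃ (f : ι → (A →L[ℂ] ℂ)) (g : κ → (B →L[ℂ] ℂ)), ∀ v, F v = ∑ k, f k (v.1 k) + ∑ p, g p (v.2 p) := by
  classical
  refine ⟨fun k => F.comp ((ContinuousLinearMap.inl ℂ (ι → A) (κ → B)).comp
      (ContinuousLinearMap.single ℂ (fun _ : ι => A) k)),
    fun k => F.comp ((ContinuousLinearMap.inr ℂ (ι → A) (κ → B)).comp
      (ContinuousLinearMap.single ℂ (fun _ : κ => B) k)),
    fun v => ?_⟩
  have h1 : v = (v.1, 0) + (0, v.2) := by simp
  have h2 : F (v.1, 0) = ∑ k, F (Pi.single k (v.1 k), 0) := by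
    have h3 := congrArg (fun a => (F.comp (ContinuousLinearMap.inl ℂ (ι → A) (κ → B))) a)
      (Finset.univ_sum_single v.1).symm
    rw [map_sum] at h3
    exact h3
  have h4 : F (0, v.2) = ∑ k, F (0, Pi.single k (v.2 k)) := by
    have h3 := congrArg (fun a => (F.comp (ContinuousLinearMap.inr ℂ (ι → A) (κ → B))) a)
      (Finset.univ_sum_single v.2).symm
    rw [map_sum] at h3
    exact h3
  conv_lhs => rw [h1]
  rw [map_add, h2, h4]
  rfl

/-- linearity of a convex combination of conjugations -/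
theorem norm_comb_le {n : ℕ} {c : Fin n → ℝ} {u : Fin n → (H →L[ℂ] H)} (hc0 : ∀ i, 0 ≤ c i)
    (hc1 : ∑ i, c i = 1) (hu : ∀ i, u i ∈ unitary (H →L[ℂ] H)) (a : H →L[ℂ] H) :
    ‖∑ i, (c i : ℂ) • (u i * a * star (u i))‖ ≤ ‖a‖ := by
  calc ‖∑ i, (c i : ℂ) • (u i * a * star (u i))‖ ≤ ∑ i, ‖(c i : ℂ) • (u i * a * star (u i))‖ :=
        norm_sum_le _ _
    _ ≤ ∑ i, c i * ‖a‖ := by
      refine Finset.sum_le_sum fun i _ => ?_
      rw [norm_smul, Complex.norm_real, Real.norm_of_nonneg (hc0 i)]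
      refine mul_le_mul_of_nonneg_left ?_ (hc0 i)
      have h1 := norm_unitary_le_one (hu i)
      have h2 := norm_unitary_le_one (star_mem_unitary (hu i))
      calc ‖u i * a * star (u i)‖ ≤ ‖u i‖ * ‖a‖ * ‖star (u i)‖ :=
            (norm_mul_le _ _).trans (mul_le_mul_of_nonneg_right (norm_mul_le _ _) (norm_nonneg _))
        _ ≤ 1 * ‖a‖ * 1 := by gcongr
        _ = ‖a‖ := by ring
    _ = ‖a‖ := by rw [← Finset.sum_mul, hc1, one_mul]

theorem norm_state_le {M : VonNeumannAlgebra H} {ω : (H →L[ℂ] H) → ℂ} (hω : IsNormalState M ω)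
    {a : H →L[ℂ] H} (ha : a ∈ M) : ‖ω a‖ ≤ ‖a‖ := by
  obtain ⟨V, hV1, hV⟩ := exists_vec hω
  rw [hV a ha]
  refine (norm_inner_le_norm _ _).trans ?_
  rw [hV1, one_mul]
  refine ((amp a).le_opNorm V).trans ?_
  rw [hV1, mul_one]
  exact norm_amp_le a

theorem state_sub_smul_one {M : VonNeumannAlgebra H} {ω : (H →L[ℂ] H) → ℂ}
    (hω : IsNormalState M ω) {a : H →L[ℂ] H} (ha : a ∈ M) (c : ℂ) :
    ω (a - c • 1) = ω a - c := by
  obtain ⟨V, hV1, hV⟩ := exists_vec hω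
  have h1 : c • (1 : H →L[ℂ] H) ∈ M := M.toStarSubalgebra.smul_mem (one_mem M) _
  have e : amp (a - c • (1 : H →L[ℂ] H)) V = amp a V - c • V := by
    ext i
    show (a - c • (1 : H →L[ℂ] H)) (V i) = a (V i) - c • V i
    simp
  rw [hV _ (sub_mem ha h1), hV _ ha, e, inner_sub_right, inner_smul_right,
    inner_self_eq_norm_sq_to_K, hV1]
  simp

theorem state_comb {M : VonNeumannAlgebra H} {ω : (H →L[ℂ] H) → ℂ}
    (hω : IsNormalState M ω) {κ : Type} [Fintype κ] (c : κ → ℝ) (b : κ → (H →L[ℂ] H))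
    (hb : ∀ i, b i ∈ M) : ω (∑ i, (c i : ℂ) • b i) = ∑ i, (c i : ℂ) * ω (b i) := by
  obtain ⟨V, hV1, hV⟩ := exists_vec hω
  have hM : ∑ i, (c i : ℂ) • b i ∈ M :=
    sum_mem fun i _ => M.toStarSubalgebra.smul_mem (hb i) _
  have e : amp (∑ i, (c i : ℂ) • b i) V = ∑ i, (c i : ℂ) • amp (b i) V := by
    ext j
    have h1 : (∑ i, (c i : ℂ) • amp (b i) V) j = ∑ i, ((c i : ℂ) • amp (b i) V) j := by
      have := map_sum (crd (H := H) j) (fun i => (c i : ℂ) • amp (b i) V) Finset.univ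
      exact this
    rw [h1, amp_apply, sum_apply]
    rfl
  rw [hV _ hM, e, inner_sum]
  refine Finset.sum_congr rfl fun i _ => ?_
  rw [inner_smul_right, hV _ (hb i)]

/-- the vector of the conjugated state -/
theorem state_conj {M : VonNeumannAlgebra H} {ω : (H →L[ℂ] H) → ℂ} {V : EllTwo H}
    (hV : ∀ x ∈ M, ω x = ⟪V, amp x V⟫_ℂ) {u : H →L[ℂ] H} (hu : u ∈ M) {a : H →L[ℂ] H}
    (ha : a ∈ M) : ⟪amp (star u) V, amp a (amp (star u) V)⟫_ℂ = ω (u * a * star u) := by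
  rw [hV _ (mul_mem (mul_mem hu ha) (star_mem hu)), amp_mul, amp_mul, mul_apply_eq_comp,
    mul_apply_eq_comp, amp_star, BC.inner_star]

variable {M : VonNeumannAlgebra H} {φ : (H →L[ℂ] H) → ℂ}

/-- the space of the separation argument -/
abbrev VV (M : VonNeumannAlgebra H) (ιx ιz ιω : Type) : Type u :=
  (ιω → (MT M →L[ℂ] ℂ)) × (ιx × ιz → H)

/-- the point of a unitary -/
noncomputable def Tm {ιx ιz ιω : Type} (M : VonNeumannAlgebra H) (x : ιx → H →L[ℂ] H) (ζ : ιz → H)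
    (W : ιω → EllTwo H) (u : H →L[ℂ] H) : VV M ιx ιz ιω :=
  (fun k => nf M (amp (star u) (W k)), fun p => (u * x p.1 * star u) (ζ p.2))

/-- the target -/
noncomputable def Tg {ιx ιz ιω : Type} (M : VonNeumannAlgebra H) (φ : (H →L[ℂ] H) → ℂ)
    (x : ιx → H →L[ℂ] H) (ζ : ιz → H) (V : EllTwo H) : VV M ιx ιz ιω :=
  (fun _ => nf M V, fun p => φ (x p.1) • ζ p.2)

theorem target_mem (hM : IsTypeIIIOneFactor M) (hφ : IsNormalState M φ) (hf : IsFaithful M φ)
    {ιx ιz ιω : Type} [Fintype ιx] [Fintype ιz] [Fintype ιω]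
    {x : ιx → H →L[ℂ] H} (hx : ∀ j, x j ∈ M) (ζ : ιz → H) {ω : ιω → (H →L[ℂ] H) → ℂ}
    (hω : ∀ k, IsNormalState M (ω k)) {W : ιω → EllTwo H}
    (hW : ∀ k, ∀ x ∈ M, ω k x = ⟪W k, amp x (W k)⟫_ℂ) {V : EllTwo H}
    (hV : ∀ x ∈ M, φ x = ⟪V, amp x V⟫_ℂ) {δ : ℝ} (hδ : 0 < δ) :
    (Tg M φ x ζ V : VV M ιx ιz ιω) ∈
      closure (convexHull ℝ (Tm M x ζ W '' almostCentralizing M φ δ)) := by
  by_contra hcon
  obtain ⟨F, s, hF1, hF2⟩ := RCLike.geometric_hahn_banach_closed_point (𝕜 := ℂ)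
    ((convex_convexHull ℝ (Tm M x ζ W '' almostCentralizing M φ δ)).closure) isClosed_closure hcon
  obtain ⟨f, g, hfg⟩ := decomp F
  choose a ha hfa using fun k => exists_rep (f k)
  have hFT : ∀ u ∈ M, F (Tm M x ζ W u) = ∑ k, ω k (u * a k * star u) +
      ∑ p, g p ((u * x p.1 * star u) (ζ p.2)) := by
    intro u hu
    rw [hfg]
    congr 1
    refine Finset.sum_congr rfl fun k _ => ?_
    show f k (nf M (amp (star u) (W k))) = _
    rw [rep_nf (hfa k), state_conj (hW k) hu (ha k)]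
  have hFt : F (Tg M φ x ζ V : VV M ιx ιz ιω) = ∑ k, φ (a k) + ∑ p, g p (φ (x p.1) • ζ p.2) := by
    rw [hfg]
    congr 1
    refine Finset.sum_congr rfl fun k _ => ?_
    show f k (nf M V) = _
    rw [rep_nf (hfa k), hV _ (ha k)]
  -- the tolerance
  set ρ : ℝ := (F (Tg M φ x ζ V : VV M ιx ιz ιω)).re - s with hρ
  have hρ0 : 0 < ρ := sub_pos.2 hF2
  set N : ℝ := (Fintype.card ιω : ℝ) + (Fintype.card (ιx × ιz) : ℝ) + 1 with hN
  have hN0 : 0 < N := by positivity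
  set τ : ℝ := ρ / (2 * N) with hτ
  have hτ0 : 0 < τ := by positivity
  choose η₁ hη₁ h₁ using fun k => state_small hφ hf (hω k) (2 * ‖a k‖) hτ0
  choose η₂ hη₂ h₂ using fun p : ιx × ιz => strong_small hφ hf (ζ p.2) (2 * ‖x p.1‖)
    (ε := τ / (‖g p‖ + 1)) (by positivity)
  obtain ⟨e₁, he₁, he₁'⟩ := exists_pos_le η₁ hη₁
  obtain ⟨e₂, he₂, he₂'⟩ := exists_pos_le η₂ hη₂
  obtain ⟨n, c, u, hc0, hc1, hu, hsum⟩ := exists_averaging_state hM hφ hf
    (x := Sum.elim a x) (by rintro (k | j); exacts [ha k, hx j]) hδ (lt_min he₁ he₂)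
  set A : ιω → (H →L[ℂ] H) := fun k => ∑ i, (c i : ℂ) • (u i * a k * star (u i)) with hA
  set X : ιx → (H →L[ℂ] H) := fun j => ∑ i, (c i : ℂ) • (u i * x j * star (u i)) with hX
  have hAM : ∀ k, A k ∈ M := fun k => sum_mem fun i _ => M.toStarSubalgebra.smul_mem
    (mul_mem (mul_mem (hu i).1 (ha k)) (star_mem (hu i).1)) _
  have hXM : ∀ j, X j ∈ M := fun j => sum_mem fun i _ => M.toStarSubalgebra.smul_mem
    (mul_mem (mul_mem (hu i).1 (hx j)) (star_mem (hu i).1)) _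
  have h1M : ∀ z : ℂ, z • (1 : H →L[ℂ] H) ∈ M := fun z => M.toStarSubalgebra.smul_mem (one_mem M) _
  have hsmall : ∀ y ∈ M, ‖(∑ i, (c i : ℂ) • (u i * y * star (u i))) - φ y • (1 : H →L[ℂ] H)‖ ≤
      2 * ‖y‖ := by
    intro y hy
    refine (norm_sub_le _ _).trans ?_
    have b1 := norm_comb_le hc0 hc1 (fun i => (hu i).2.1) y
    have b2 : ‖φ y • (1 : H →L[ℂ] H)‖ ≤ ‖y‖ := by
      rw [norm_smul]
      have b3 : ‖(1 : H →L[ℂ] H)‖ ≤ 1 := ContinuousLinearMap.norm_id_le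
      calc ‖φ y‖ * ‖(1 : H →L[ℂ] H)‖ ≤ ‖y‖ * 1 := by
            gcongr
            exact norm_state_le hφ hy
        _ = ‖y‖ := mul_one _
    linarith
  have hT1 : ∀ k, ‖ω k (A k) - φ (a k)‖ ≤ τ := by
    intro k
    rw [← state_sub_smul_one (hω k) (hAM k)]
    refine h₁ k _ (sub_mem (hAM k) (h1M _)) (hsmall _ (ha k)) ?_
    exact (hsum (Sum.inl k)).trans ((min_le_left _ _).trans (he₁' k))
  have hT2 : ∀ p : ιx × ιz, ‖g p (X p.1 (ζ p.2)) - g p (φ (x p.1) • ζ p.2)‖ ≤ τ := by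
    intro p
    rw [← map_sub]
    have b1 : X p.1 (ζ p.2) - φ (x p.1) • ζ p.2 = (X p.1 - φ (x p.1) • (1 : H →L[ℂ] H)) (ζ p.2) := by
      simp
    rw [b1]
    have b2 := h₂ p _ (sub_mem (hXM p.1) (h1M _)) (hsmall _ (hx p.1))
      ((hsum (Sum.inr p.1)).trans ((min_le_right _ _).trans (he₂' p)))
    refine ((g p).le_opNorm _).trans ?_
    calc ‖g p‖ * ‖(X p.1 - φ (x p.1) • (1 : H →L[ℂ] H)) (ζ p.2)‖
        ≤ (‖g p‖ + 1) * (τ / (‖g p‖ + 1)) := by
          gcongr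
          linarith
      _ = τ := by field_simp
  have hmem : ∑ i, c i • Tm M x ζ W (u i) ∈
      closure (convexHull ℝ (Tm M x ζ W '' almostCentralizing M φ δ)) :=
    subset_closure ((convex_convexHull ℝ _).sum_mem (fun i _ => hc0 i) hc1
      fun i _ => subset_convexHull ℝ _ ⟨u i, hu i, rfl⟩)
  have h3 := hF1 _ hmem
  have h4 : F (∑ i, c i • Tm M x ζ W (u i)) = ∑ k, ω k (A k) + ∑ p, g p (X p.1 (ζ p.2)) := by
    have b1 : F (∑ i, c i • Tm M x ζ W (u i)) = ∑ i, (c i : ℂ) * F (Tm M x ζ W (u i)) := by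
      rw [map_sum]
      refine Finset.sum_congr rfl fun i _ => ?_
      have b2 : c i • Tm M x ζ W (u i) = (c i : ℂ) • Tm M x ζ W (u i) :=
        (algebraMap_smul ℂ (c i) (Tm M x ζ W (u i))).symm
      rw [b2, map_smul]; rfl
    rw [b1]
    have b3 : ∀ i, (c i : ℂ) * F (Tm M x ζ W (u i)) =
        ∑ k, (c i : ℂ) * ω k (u i * a k * star (u i)) +
        ∑ p, (c i : ℂ) * g p ((u i * x p.1 * star (u i)) (ζ p.2)) := by
      intro i
      rw [hFT _ (hu i).1, mul_add, Finset.mul_sum, Finset.mul_sum]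
    rw [Finset.sum_congr rfl fun i _ => b3 i, Finset.sum_add_distrib, Finset.sum_comm,
      Finset.sum_comm (s := Finset.univ) (t := Finset.univ)
        (f := fun i (p : ιx × ιz) => (c i : ℂ) * g p ((u i * x p.1 * star (u i)) (ζ p.2)))]
    congr 1
    · refine Finset.sum_congr rfl fun k _ => ?_
      rw [hA]
      exact (state_comb (hω k) c (fun i => u i * a k * star (u i))
        (fun i => mul_mem (mul_mem (hu i).1 (ha k)) (star_mem (hu i).1))).symm
    · refine Finset.sum_congr rfl fun p _ => ?_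
      have b4 : X p.1 (ζ p.2) = ∑ i, (c i : ℂ) • ((u i * x p.1 * star (u i)) (ζ p.2)) := by
        rw [hX]
        simp only [sum_apply]
        rfl
      rw [b4, map_sum]
      refine Finset.sum_congr rfl fun i _ => ?_
      rw [map_smul]; rfl
  have h5 : ‖F (∑ i, c i • Tm M x ζ W (u i)) - F (Tg M φ x ζ V : VV M ιx ιz ιω)‖ ≤ N * τ := by
    rw [h4, hFt]
    have e : (∑ k, ω k (A k) + ∑ p, g p (X p.1 (ζ p.2))) -
        (∑ k, φ (a k) + ∑ p, g p (φ (x p.1) • ζ p.2)) =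
        ∑ k, (ω k (A k) - φ (a k)) + ∑ p, (g p (X p.1 (ζ p.2)) - g p (φ (x p.1) • ζ p.2)) := by
      rw [Finset.sum_sub_distrib, Finset.sum_sub_distrib]; ring
    rw [e]
    refine (norm_add_le _ _).trans ?_
    have b1 : ‖∑ k, (ω k (A k) - φ (a k))‖ ≤ (Fintype.card ιω : ℝ) * τ := by
      refine (norm_sum_le _ _).trans ?_
      refine (Finset.sum_le_sum fun k _ => hT1 k).trans ?_
      simp
    have b2 : ‖∑ p, (g p (X p.1 (ζ p.2)) - g p (φ (x p.1) • ζ p.2))‖ ≤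
        (Fintype.card (ιx × ιz) : ℝ) * τ := by
      refine (norm_sum_le _ _).trans ?_
      refine (Finset.sum_le_sum fun k _ => hT2 k).trans ?_
      simp
    have b3 : N * τ = (Fintype.card ιω : ℝ) * τ + (Fintype.card (ιx × ιz) : ℝ) * τ + τ := by
      rw [hN]; ring
    linarith
  have h6 : N * τ < ρ := by
    have : N * τ = ρ / 2 := by
      rw [hτ]; field_simp
    rw [this]; linarith
  have h7 : (F (Tg M φ x ζ V : VV M ιx ιz ιω)).re - (F (∑ i, c i • Tm M x ζ W (u i))).re ≤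
      N * τ := by
    rw [← Complex.sub_re]
    refine (Complex.re_le_norm _).trans ?_
    rw [norm_sub_rev]
    exact h5
  have h8 : (F (∑ i, c i • Tm M x ζ W (u i))).re < s := h3
  linarith

/-- **Averaging theorem**: strong convergence on finite sets and norm convergence in the predual. -/
theorem averaging_main (hM : IsTypeIIIOneFactor M) (hφ : IsNormalState M φ) (hf : IsFaithful M φ)
    {ιx ιz ιω : Type} [Fintype ιx] [Fintype ιz] [Fintype ιω]
    {x : ιx → H →L[ℂ] H} (hx : ∀ j, x j ∈ M) (ζ : ιz → H) {ω : ιω → (H →L[ℂ] H) → ℂ}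
    (hω : ∀ k, IsNormalState M (ω k)) {δ ε : ℝ} (hδ : 0 < δ) (hε : 0 < ε) :
    ∃ (n : ℕ) (c : Fin n → ℝ) (u : Fin n → (H →L[ℂ] H)), (∀ i, 0 ≤ c i) ∧ ∑ i, c i = 1 ∧
      (∀ i, u i ∈ almostCentralizing M φ δ) ∧
      (∀ j k, ‖(∑ i, (c i : ℂ) • (u i * x j * star (u i))) (ζ k) - φ (x j) • ζ k‖ ≤ ε) ∧
      ∀ k, ∀ y ∈ M, ‖ω k (∑ i, (c i : ℂ) • (u i * y * star (u i))) - φ y‖ ≤ ε * ‖y‖ := by
  choose W hW1 hW using fun k => exists_vec (hω k)
  obtain ⟨V, hV1, hV⟩ := exists_vec hφ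
  have h0 := target_mem hM hφ hf hx ζ hω hW hV hδ
  obtain ⟨z, hz, hd⟩ := Metric.mem_closure_iff.1 h0 ε hε
  obtain ⟨κ, _, c, s, hc0, hc1, hs, hsum⟩ := mem_convexHull_iff_exists_fintype.1 hz
  choose u hu hu' using hs
  let e := (Fintype.equivFin κ).symm
  rw [dist_eq_norm] at hd
  have hz' : z = ∑ i, c i • Tm M x ζ W (u i) := by
    rw [← hsum]
    exact Finset.sum_congr rfl fun i _ => by rw [hu' i]
  refine ⟨Fintype.card κ, fun i => c (e i), fun i => u (e i), fun i => hc0 _, ?_,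
    fun i => hu _, fun j k => ?_, fun k y hy => ?_⟩
  · rw [← hc1]
    exact Equiv.sum_comp e c
  · have h2 := Equiv.sum_comp e fun k => (c k : ℂ) • (u k * x j * star (u k))
    rw [h2]
    have h3 : (∑ i, (c i : ℂ) • (u i * x j * star (u i))) (ζ k) = z.2 (j, k) := by
      rw [hz', Prod.snd_sum, Finset.sum_apply, sum_apply]
      refine Finset.sum_congr rfl fun i _ => ?_
      show (c i : ℂ) • ((u i * x j * star (u i)) (ζ k)) = c i • ((u i * x j * star (u i)) (ζ k))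
      simp
    rw [h3, norm_sub_rev]
    have h4 : φ (x j) • ζ k - z.2 (j, k) =
        ((Tg M φ x ζ V : VV M ιx ιz ιω) - z).2 (j, k) := rfl
    rw [h4]
    exact (norm_le_pi_norm _ _).trans ((norm_snd_le _).trans hd.le)
  · have h2 := Equiv.sum_comp e fun k => (c k : ℂ) • (u k * y * star (u k))
    rw [h2]
    have h3 : ω k (∑ i, (c i : ℂ) • (u i * y * star (u i))) = z.1 k (MT.mk y hy) := by
      rw [hz', Prod.fst_sum, Finset.sum_apply, sum_apply,
        state_comb (hω k) c (fun i => u i * y * star (u i))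
          (fun i => mul_mem (mul_mem (hu i).1 hy) (star_mem (hu i).1))]
      refine Finset.sum_congr rfl fun i _ => ?_
      have b1 : nf M (amp (star (u i)) (W k)) (MT.mk y hy) = ω k (u i * y * star (u i)) := by
        rw [nf_apply, MT.op_mk, state_conj (hW k) (hu i).1 hy]
      rw [← b1]
      show (c i : ℂ) * nf M (amp (star (u i)) (W k)) (MT.mk y hy) =
        c i • nf M (amp (star (u i)) (W k)) (MT.mk y hy)
      simp
    have h4 : φ y = (Tg M φ x ζ V : VV M ιx ιz ιω).1 k (MT.mk y hy) := by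
      show φ y = nf M V (MT.mk y hy)
      rw [nf_apply, MT.op_mk, hV y hy]
    rw [h3, h4, norm_sub_rev, ← sub_apply]
    have h5 : ‖(Tg M φ x ζ V : VV M ιx ιz ιω).1 k - z.1 k‖ ≤ ε :=
      (norm_le_pi_norm ((Tg M φ x ζ V : VV M ιx ιz ιω) - z).1 k).trans
        ((norm_fst_le ((Tg M φ x ζ V : VV M ιx ιz ιω) - z)).trans hd.le)
    refine (ContinuousLinearMap.le_opNorm _ _).trans ?_
    exact mul_le_mul_of_nonneg_right h5 (norm_nonneg _)

end PD

end Vale.Agent.P132
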