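import Vale.Agent.P132.H723.AvgState

/-!
# P132: averaging in the norm of the predual
-/

open Filter Topology
open scoped ComplexConjugate InnerProductSpace

namespace Vale.Agent.P132

universe u

variable {H : Type u} [NormedAddCommGroup H] [InnerProductSpace ℂ H] [CompleteSpace H]

namespace PD

/-- `M` as a normed space -/
abbrev MS (M : VonNeumannAlgebra H) : Submodule ℂ (H →L[ℂ] H) :=
  Subalgebra.toSubmodule M.toStarSubalgebra.toSubalgebra

/-- `M` as a normed space (type) -/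
def MT (M : VonNeumannAlgebra H) : Type u := MS M

noncomputable instance (M : VonNeumannAlgebra H) : NormedAddCommGroup (MT M) :=
  inferInstanceAs (NormedAddCommGroup (MS M))

noncomputable instance (M : VonNeumannAlgebra H) : NormedSpace ℂ (MT M) :=
  inferInstanceAs (NormedSpace ℂ (MS M))

/-- the operator -/
def MT.op {M : VonNeumannAlgebra H} (y : MT M) : H →L[ℂ] H := Subtype.val (p := (· ∈ MS M)) y

/-- the constructor -/
def MT.mk {M : VonNeumannAlgebra H} (x : H →L[ℂ] H) (hx : x ∈ M) : MT M := ⟨x, hx⟩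

theorem MT.op_mk {M : VonNeumannAlgebra H} (x : H →L[ℂ] H) (hx : x ∈ M) :
    (MT.mk x hx).op = x := rfl

theorem MT.op_mem {M : VonNeumannAlgebra H} (y : MT M) : y.op ∈ M := Subtype.prop y

theorem MT.op_add {M : VonNeumannAlgebra H} (y z : MT M) : (y + z).op = y.op + z.op := rfl

theorem MT.op_smul {M : VonNeumannAlgebra H} (c : ℂ) (y : MT M) : (c • y).op = c • y.op := rfl

theorem MT.norm_op {M : VonNeumannAlgebra H} (y : MT M) : ‖y.op‖ = ‖y‖ := rfl

/-- vector functionals -/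
noncomputable def vf (M : VonNeumannAlgebra H) (η ζ : H) : MT M →L[ℂ] ℂ :=
  LinearMap.mkContinuous
    { toFun := fun y => ⟪η, y.op ζ⟫_ℂ
      map_add' := fun y z => by
        rw [MT.op_add, add_apply, inner_add_right]
      map_smul' := fun c y => by
        rw [MT.op_smul, smul_apply, inner_smul_right]; rfl } (‖η‖ * ‖ζ‖) (fun y => by
    show ‖⟪η, y.op ζ⟫_ℂ‖ ≤ _
    refine (norm_inner_le_norm _ _).trans ?_
    have h1 : ‖y.op ζ‖ ≤ ‖y‖ * ‖ζ‖ := y.op.le_opNorm ζ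
    calc ‖η‖ * ‖y.op ζ‖ ≤ ‖η‖ * (‖y‖ * ‖ζ‖) := by gcongr
      _ = ‖η‖ * ‖ζ‖ * ‖y‖ := by ring)

theorem vf_apply (M : VonNeumannAlgebra H) (η ζ : H) (y : MT M) :
    vf M η ζ y = ⟪η, y.op ζ⟫_ℂ := rfl

theorem norm_vf_le (M : VonNeumannAlgebra H) (η ζ : H) : ‖vf M η ζ‖ ≤ ‖η‖ * ‖ζ‖ :=
  LinearMap.mkContinuous_norm_le _ (by positivity) _

/-- functionals on the predual are given by elements of `M` -/
theorem exists_rep {M : VonNeumannAlgebra H} (F : (MT M →L[ℂ] ℂ) →L[ℂ] ℂ) :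
    ∃ a ∈ M, ∀ η ζ, F (vf M η ζ) = ⟪η, a ζ⟫_ℂ := by
  let B : H →L⋆[ℂ] H →L[ℂ] ℂ := LinearMap.mkContinuous₂
    (LinearMap.mk₂'ₛₗ (starRingEnd ℂ) (RingHom.id ℂ) (fun η ζ => F (vf M η ζ))
      (fun η η' ζ => by
        rw [← map_add]; congr 1; ext y
        rw [add_apply, vf_apply, vf_apply, vf_apply, inner_add_left])
      (fun c η ζ => by
        rw [← map_smul]; congr 1; ext y
        rw [smul_apply, vf_apply, vf_apply, inner_smul_left]; rfl)
      (fun η ζ ζ' => by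
        rw [← map_add]; congr 1; ext y
        rw [add_apply, vf_apply, vf_apply, vf_apply, map_add, inner_add_right])
      (fun c η ζ => by
        rw [← map_smul]; congr 1; ext y
        rw [smul_apply, vf_apply, vf_apply, map_smul, inner_smul_right]; rfl)) ‖F‖
    (fun η ζ => by
      show ‖F (vf M η ζ)‖ ≤ _
      refine (F.le_opNorm _).trans ?_
      rw [mul_assoc]
      exact mul_le_mul_of_nonneg_left (norm_vf_le M η ζ) (norm_nonneg _))
  have hB : ∀ η ζ, B η ζ = F (vf M η ζ) := fun _ _ => rfl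
  set b := InnerProductSpace.continuousLinearMapOfBilin B with hb
  have hF : ∀ η ζ, F (vf M η ζ) = ⟪η, star b ζ⟫_ℂ := by
    intro η ζ
    rw [BC.inner_star', hb, InnerProductSpace.continuousLinearMapOfBilin_apply, hB]
  refine ⟨star b, xl_mem_of_comm fun y hy ζ => ?_, hF⟩
  refine ext_inner_left ℂ fun η => ?_
  rw [← hF, ← BC.inner_star, ← hF]
  congr 1
  ext z
  rw [vf_apply, vf_apply, BC.inner_star, ModData.comm_apply z.op_mem hy]

/-- normal functionals -/
noncomputable def nf (M : VonNeumannAlgebra H) (f : EllTwo H) : MT M →L[ℂ] ℂ :=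
  LinearMap.mkContinuous
    { toFun := fun y => ⟪f, amp y.op f⟫_ℂ
      map_add' := fun y z => by
        rw [MT.op_add, amp_add, add_apply, inner_add_right]
      map_smul' := fun c y => by
        rw [MT.op_smul, amp_smul, smul_apply, inner_smul_right]; rfl } (‖f‖ * ‖f‖) (fun y => by
    show ‖⟪f, amp y.op f⟫_ℂ‖ ≤ _
    refine (norm_inner_le_norm _ _).trans ?_
    have h1 : ‖amp y.op f‖ ≤ ‖y‖ * ‖f‖ :=
      ((amp y.op).le_opNorm f).trans
        (mul_le_mul_of_nonneg_right (norm_amp_le _) (norm_nonneg _))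
    calc ‖f‖ * ‖amp y.op f‖ ≤ ‖f‖ * (‖y‖ * ‖f‖) := by gcongr
      _ = ‖f‖ * ‖f‖ * ‖y‖ := by ring)

theorem nf_apply (M : VonNeumannAlgebra H) (f : EllTwo H) (y : MT M) :
    nf M f y = ⟪f, amp y.op f⟫_ℂ := rfl

theorem hasSum_vf_apply (M : VonNeumannAlgebra H) (f : EllTwo H) (y : MT M) :
    HasSum (fun i => vf M (f i) (f i) y) (nf M f y) :=
  lp.hasSum_inner (𝕜 := ℂ) f (amp y.op f)

theorem hasSum_nf (M : VonNeumannAlgebra H) (f : EllTwo H) :
    HasSum (fun i => vf M (f i) (f i)) (nf M f) := by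
  have hs : Summable (fun i => vf M (f i) (f i)) := by
    refine Summable.of_norm_bounded (L2_norm_sq f).summable fun i => ?_
    rw [pow_two]
    exact norm_vf_le M _ _
  have h1 : (∑' i, vf M (f i) (f i)) = nf M f := by
    ext y
    have h2 : HasSum (fun i => vf M (f i) (f i) y) ((∑' i, vf M (f i) (f i)) y) :=
      hs.hasSum.mapL (ContinuousLinearMap.apply ℂ ℂ y)
    exact h2.unique (hasSum_vf_apply M f y)
  rw [← h1]
  exact hs.hasSum

theorem rep_nf {M : VonNeumannAlgebra H} {F : (MT M →L[ℂ] ℂ) →L[ℂ] ℂ} {a : H →L[ℂ] H}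
    (h : ∀ η ζ, F (vf M η ζ) = ⟪η, a ζ⟫_ℂ) (f : EllTwo H) : F (nf M f) = ⟪f, amp a f⟫_ℂ := by
  have h1 : HasSum (fun i => F (vf M (f i) (f i))) (F (nf M f)) := (hasSum_nf M f).mapL F
  have h2 : (fun i => F (vf M (f i) (f i))) = fun i => ⟪f i, (amp a f) i⟫_ℂ := by
    funext i
    rw [h]; rfl
  rw [h2] at h1
  exact h1.unique (lp.hasSum_inner (𝕜 := ℂ) f (amp a f))

theorem exists_pos_le {ι : Type*} [Finite ι] (f : ι → ℝ) (hf : ∀ i, 0 < f i) :
    ∃ η > 0, ∀ i, η ≤ f i := by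
  rcases isEmpty_or_nonempty ι with h | h
  · exact ⟨1, one_pos, fun i => h.elim i⟩
  · obtain ⟨i, hi⟩ := Finite.exists_min f
    exact ⟨f i, hf i, hi⟩

/-- vectors of a normal state -/
theorem exists_vec {M : VonNeumannAlgebra H} {ω : (H →L[ℂ] H) → ℂ} (hω : IsNormalState M ω) :
    ∃ V : EllTwo H, ‖V‖ = 1 ∧ ∀ x ∈ M, ω x = ⟪V, amp x V⟫_ℂ := by
  obtain ⟨g, hg1, hg⟩ := hω
  let v : EllTwo H := ⟨g, (memℓp_two_iff g).2 hg1.summable⟩
  have hv1 : ‖v‖ = 1 := by
    have h1 : ‖v‖ ^ 2 = 1 := (L2_norm_sq v).unique hg1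
    have h2 := norm_nonneg v
    nlinarith
  exact ⟨v, hv1, fun x hx =>
    ((lp.hasSum_inner (𝕜 := ℂ) v (amp x v)).unique (hg x hx)).symm⟩

end PD

end Vale.Agent.P132
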