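import Vale.Agent.P132.WeightDefs

/-!
# P132: averaging maps by unitaries almost centralizing the state
-/

namespace Vale.Agent.P132

universe u

variable {H : Type u} [NormedAddCommGroup H] [InnerProductSpace ℂ H] [CompleteSpace H]

/-- The unitaries `u` of `M` with `‖u φ - φ u‖ ≤ δ` in the predual of `M`. -/
def almostCentralizing (M : VonNeumannAlgebra H) (φ : (H →L[ℂ] H) → ℂ) (δ : ℝ) :
    Set (H →L[ℂ] H) :=
  {u | u ∈ M ∧ u ∈ unitary (H →L[ℂ] H) ∧ ∀ y ∈ M, ‖y‖ ≤ 1 → ‖φ (y * u) - φ (u * y)‖ ≤ δ}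

/-- The finite convex combinations `x ↦ ∑ c_i u_i x u_i*` of conjugations by unitaries `u_i` of `M`
with `‖u_i φ - φ u_i‖ ≤ δ`. -/
def averagings (M : VonNeumannAlgebra H) (φ : (H →L[ℂ] H) → ℂ) (δ : ℝ) :
    Set ((H →L[ℂ] H) → (H →L[ℂ] H)) :=
  {α | ∃ (n : ℕ) (c : Fin n → ℝ) (u : Fin n → (H →L[ℂ] H)), (∀ i, 0 ≤ c i) ∧ ∑ i, c i = 1 ∧
    (∀ i, u i ∈ almostCentralizing M φ δ) ∧
    ∀ x, α x = ∑ i, (c i : ℂ) • (u i * x * star (u i))}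

end Vale.Agent.P132
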