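import Vale.Agent.P132.H723.AvgStd
import Vale.Agent.P132.H723.Defs

/-!
# P132: averaging over unitaries almost centralizing a faithful normal state
-/

open Filter Topology
open scoped ComplexConjugate InnerProductSpace BoundedContinuousFunction

namespace Vale.Agent.P132

universe u

variable {H : Type u} [NormedAddCommGroup H] [InnerProductSpace ℂ H] [CompleteSpace H]

/-- averaging a finite family in `M`, up to `‖·‖_φ`-errors -/
theorem exists_averaging_state {M : VonNeumannAlgebra H} (hM : IsTypeIIIOneFactor M)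
    {φ : (H →L[ℂ] H) → ℂ} (hφ : IsNormalState M φ) (hf : IsFaithful M φ)
    {ι : Type} [Fintype ι] {x : ι → H →L[ℂ] H} (hx : ∀ j, x j ∈ M) {δ ε : ℝ} (hδ : 0 < δ)
    (hε : 0 < ε) :
    ∃ (n : ℕ) (c : Fin n → ℝ) (u : Fin n → (H →L[ℂ] H)), (∀ i, 0 ≤ c i) ∧ ∑ i, c i = 1 ∧
      (∀ i, u i ∈ almostCentralizing M φ δ) ∧
      ∀ j, ‖φ (star (∑ i, (c i : ℂ) • (u i * x j * star (u i)) - φ (x j) • 1) *
        (∑ i, (c i : ℂ) • (u i * x j * star (u i)) - φ (x j) • 1))‖ ≤ ε := by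
  have hS : ∀ t : ℝ, 0 < t → t ∈ connesS M := fun t ht =>
    connesInvariant_subset (by rw [hM.connes]; exact ht.le)
  have hIII := isTypeIII_of_connesS hM.factor hS hφ hf
  obtain ⟨K, _, _, _, ⟨R⟩⟩ := exists_stdRep M φ hφ hf
  obtain ⟨D⟩ := exists_modData R.N R.ξ R.norm_xi R.cyc R.sep
  have hcore : ∀ x, D.InN x → ∃ c : ℂ, x = c • 1 := D.core (R.factor hM.factor)
    (R.typeIII (isTypeIII_of_state hM.factor hφ hf hIII)) (R.hspec_pos hS)
  obtain ⟨n, c, v, hc0, hc1, hv, hsum⟩ := D.exists_averaging hcore (x := fun j => R.π (x j))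
    (fun j => R.mem _ (hx j)) (δ := δ / 2) (ε := Real.sqrt ε) (by positivity) (by positivity)
  have hsurj : ∀ i, ∃ u ∈ M, v i = R.π u := fun i => R.surj _ (hv i).1
  choose u hu huv using hsurj
  have huu : ∀ i, u i ∈ unitary (H →L[ℂ] H) := by
    intro i
    have h1 := (hv i).2.1
    rw [huv i, Unitary.mem_iff] at h1
    rw [Unitary.mem_iff]
    constructor
    · apply R.injective (mul_mem (star_mem (hu i)) (hu i)) (one_mem M)
      rw [R.map_mul _ (star_mem (hu i)) _ (hu i), R.map_star _ (hu i), R.map_one, h1.1]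
    · apply R.injective (mul_mem (hu i) (star_mem (hu i))) (one_mem M)
      rw [R.map_mul _ (hu i) _ (star_mem (hu i)), R.map_star _ (hu i), R.map_one, h1.2]
  refine ⟨n, c, u, hc0, hc1, fun i => ⟨hu i, huu i, fun y hy hy1 => ?_⟩, fun j => ?_⟩
  · rw [← R.state _ (mul_mem hy (hu i)), ← R.state _ (mul_mem (hu i) hy),
      R.map_mul _ hy _ (hu i), R.map_mul _ (hu i) _ hy]
    have h1 := R.comm_bound D (R.mem _ (hu i)) (R.mem y hy)
    have h2 : ‖R.π y‖ ≤ 1 := (R.norm_le y hy).trans hy1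
    have h3 := (hv i).2.2
    rw [huv i] at h3
    refine h1.trans ?_
    calc 2 * ‖D.cm (R.π (u i)) R.ξ‖ * ‖R.π y‖ ≤ 2 * (δ / 2) * 1 := by gcongr
      _ = δ := by ring
  · set z : H →L[ℂ] H := ∑ i, (c i : ℂ) • (u i * x j * star (u i)) - φ (x j) • 1 with hz
    have hterm : ∀ i, u i * x j * star (u i) ∈ M := fun i =>
      mul_mem (mul_mem (hu i) (hx j)) (star_mem (hu i))
    have hsumM : ∀ s : Finset (Fin n), ∑ i ∈ s, (c i : ℂ) • (u i * x j * star (u i)) ∈ M :=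
      fun s => sum_mem fun i _ => M.toStarSubalgebra.smul_mem (hterm i) _
    have h1M : φ (x j) • (1 : H →L[ℂ] H) ∈ M := M.toStarSubalgebra.smul_mem (one_mem M) _
    have hzM : z ∈ M := sub_mem (hsumM _) h1M
    have hπ : ∀ s : Finset (Fin n), R.π (∑ i ∈ s, (c i : ℂ) • (u i * x j * star (u i))) =
        ∑ i ∈ s, (c i : ℂ) • (v i * R.π (x j) * star (v i)) := by
      intro s
      classical
      induction s using Finset.induction_on with
      | empty => simp [R.map_zero']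
      | insert a s ha ih =>
        rw [Finset.sum_insert ha, Finset.sum_insert ha,
          R.map_add _ (M.toStarSubalgebra.smul_mem (hterm a) _) _ (hsumM s), ih,
          R.map_smul _ _ (hterm a), R.map_mul _ (mul_mem (hu a) (hx j)) _ (star_mem (hu a)),
          R.map_mul _ (hu a) _ (hx j), R.map_star _ (hu a), huv a]
    have h2 : R.π z R.ξ = (∑ i, (c i : ℂ) • (v i * R.π (x j) * star (v i))) R.ξ -
        ⟪R.ξ, R.π (x j) R.ξ⟫_ℂ • R.ξ := by
      rw [hz, R.map_sub (hsumM _) h1M, hπ, R.map_smul _ _ (one_mem M), R.map_one,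
        R.state _ (hx j)]
      rfl
    have h3 : ‖R.π z R.ξ‖ ≤ Real.sqrt ε := by
      rw [h2]
      exact hsum j
    have h4 := R.state _ (mul_mem (star_mem hzM) hzM)
    rw [R.map_mul _ (star_mem hzM) _ hzM, R.map_star _ hzM, Cmp.inner_star_mul_self] at h4
    rw [← h4]
    have h5 : ‖R.π z R.ξ‖ ^ 2 ≤ ε := by
      calc ‖R.π z R.ξ‖ ^ 2 ≤ Real.sqrt ε ^ 2 := pow_le_pow_left₀ (norm_nonneg _) h3 2
        _ = ε := Real.sq_sqrt hε.le
    have h6 : ‖((‖R.π z R.ξ‖ : ℝ) : ℂ) ^ 2‖ = ‖R.π z R.ξ‖ ^ 2 := by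
      rw [norm_pow, Complex.norm_real, norm_norm]
    simpa using h5

/-- a separating vector of `𝓜` is cyclic for the commutant -/
theorem dense_commutant_of_sep {E : Type u} [NormedAddCommGroup E] [InnerProductSpace ℂ E]
    [CompleteSpace E] (N : VonNeumannAlgebra E) (v : E) (hsep : ∀ T ∈ N, T v = 0 → T = 0)
    (f : E) {ε : ℝ} (hε : 0 < ε) : ∃ T ∈ N.commutant, ‖f - T v‖ < ε := by
  set G : Set E := {w | ∃ T ∈ N.commutant, T v = w} with hG
  set S := (Submodule.span ℂ G).topologicalClosure with hS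
  have : CompleteSpace S := (Submodule.isClosed_topologicalClosure _).completeSpace_coe
  have hGM' : ∀ b ∈ N.commutant, ∀ g ∈ G, b g ∈ G := by
    rintro b hb _ ⟨a, ha, rfl⟩
    exact ⟨b * a, mul_mem hb ha, rfl⟩
  have hpM : S.starProjection ∈ N := xl_mem_of_comm fun y hy ζ =>
    xl_proj_comm S y (xl_inv G y (hGM' y hy)) (xl_inv G _ (hGM' _ (star_mem hy))) ζ
  have hvS : v ∈ S := Submodule.le_topologicalClosure _ (Submodule.subset_span
    ⟨1, one_mem _, rfl⟩)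
  have h1 : (1 : E →L[ℂ] E) - S.starProjection = 0 := by
    apply hsep _ (sub_mem (one_mem N) hpM)
    show v - S.starProjection v = 0
    rw [Submodule.starProjection_eq_self_iff.2 hvS, sub_self]
  have h2 : S.starProjection f = f := by
    have h3 := congrArg (fun T : E →L[ℂ] E => T f) h1
    have h4 : f - S.starProjection f = 0 := h3
    exact (sub_eq_zero.1 h4).symm
  have hfS : f ∈ S := by
    rw [← h2]
    exact S.starProjection_apply_mem f
  have hfc : f ∈ closure ((Submodule.span ℂ G : Submodule ℂ E) : Set E) := hfS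
  obtain ⟨g, hg, hd⟩ := Metric.mem_closure_iff.1 hfc ε hε
  have hspan : ∀ w ∈ Submodule.span ℂ G, w ∈ G := by
    intro w hw
    induction hw using Submodule.span_induction with
    | mem x hx => exact hx
    | zero => exact ⟨0, zero_mem _, rfl⟩
    | add x y _ _ hx hy =>
      obtain ⟨a, ha, rfl⟩ := hx
      obtain ⟨b, hb, rfl⟩ := hy
      exact ⟨a + b, add_mem ha hb, rfl⟩
    | smul c x _ hx =>
      obtain ⟨a, ha, rfl⟩ := hx
      exact ⟨c • a, N.commutant.toStarSubalgebra.smul_mem ha c, rfl⟩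
  obtain ⟨T, hT, rfl⟩ := hspan g hg
  exact ⟨T, hT, by rwa [← dist_eq_norm]⟩

/-- On bounded sets of `M`, the seminorm `φ(x* x)` of a faithful normal state controls the strong
topology of all amplified vectors. -/
theorem amp_small {M : VonNeumannAlgebra H} {φ : (H →L[ℂ] H) → ℂ} (hφ : IsNormalState M φ)
    (hf : IsFaithful M φ) (f : EllTwo H) (C : ℝ) {ε : ℝ} (hε : 0 < ε) :
    ∃ η > 0, ∀ z ∈ M, ‖z‖ ≤ C → ‖φ (star z * z)‖ ≤ η → ‖amp z f‖ ≤ ε := by
  obtain ⟨g, hg1, hg⟩ := hφ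
  let v : EllTwo H := ⟨g, (memℓp_two_iff g).2 hg1.summable⟩
  have hvφ : ∀ x ∈ M, ⟪v, amp x v⟫_ℂ = φ x := fun x hx =>
    (lp.hasSum_inner (𝕜 := ℂ) v (amp x v)).unique (hg x hx)
  have hnorm : ∀ z ∈ M, ‖φ (star z * z)‖ = ‖amp z v‖ ^ 2 := by
    intro z hz
    rw [← hvφ _ (mul_mem (star_mem hz) hz), amp_mul, amp_star, Cmp.inner_star_mul_self]
    rw [← Complex.ofReal_pow, Complex.norm_real, Real.norm_of_nonneg (by positivity)]
  have hsep : ∀ T ∈ ampVN M, T v = 0 → T = 0 := by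
    rintro _ ⟨x, hx, rfl⟩ h
    have h1 : x = 0 := by
      apply hf x hx
      rw [← hvφ _ (mul_mem (star_mem hx) hx), amp_mul, mul_apply_eq_comp, h, map_zero,
        inner_zero_right]
    rw [h1, amp_zero]
  obtain ⟨T, hT, hd⟩ := dense_commutant_of_sep (ampVN M) v hsep f
    (ε := ε / (2 * (|C| + 1))) (by positivity)
  refine ⟨(ε / (2 * (‖T‖ + 1))) ^ 2, by positivity, fun z hz hzC hzη => ?_⟩
  rw [hnorm z hz] at hzη
  have h1 : ‖amp z v‖ ≤ ε / (2 * (‖T‖ + 1)) :=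
    (pow_le_pow_iff_left₀ (norm_nonneg _) (by positivity) two_ne_zero).1 hzη
  have h2 : amp z f = amp z (f - T v) + T (amp z v) := by
    have h3 : amp z (T v) = T (amp z v) :=
      ModData.comm_apply (M := ampVN M) ⟨z, hz, rfl⟩ hT v
    rw [map_sub, h3]; abel
  rw [h2]
  refine (norm_add_le _ _).trans ?_
  have h3 : ‖amp z (f - T v)‖ ≤ ε / 2 := by
    refine ((amp z).le_opNorm _).trans ?_
    calc ‖amp z‖ * ‖f - T v‖ ≤ (|C| + 1) * (ε / (2 * (|C| + 1))) := by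
          gcongr
          exact (norm_amp_le z).trans (hzC.trans ((le_abs_self C).trans (by linarith)))
      _ = ε / 2 := by field_simp
  have h4 : ‖T (amp z v)‖ ≤ ε / 2 := by
    refine (T.le_opNorm _).trans ?_
    calc ‖T‖ * ‖amp z v‖ ≤ (‖T‖ + 1) * (ε / (2 * (‖T‖ + 1))) := by
          gcongr
          linarith
      _ = ε / 2 := by field_simp
  linarith

/-- strong topology of `H` -/
theorem strong_small {M : VonNeumannAlgebra H} {φ : (H →L[ℂ] H) → ℂ} (hφ : IsNormalState M φ)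
    (hf : IsFaithful M φ) (ζ : H) (C : ℝ) {ε : ℝ} (hε : 0 < ε) :
    ∃ η > 0, ∀ z ∈ M, ‖z‖ ≤ C → ‖φ (star z * z)‖ ≤ η → ‖z ζ‖ ≤ ε := by
  obtain ⟨η, hη, h⟩ := amp_small hφ hf (emb 0 ζ) C hε
  refine ⟨η, hη, fun z hz hzC hzη => ?_⟩
  have h1 := h z hz hzC hzη
  rw [amp_emb] at h1
  have h2 : ‖emb 0 (z ζ)‖ = ‖z ζ‖ := by
    show ‖lp.single (E := fun _ : ℕ => H) 2 0 (z ζ)‖ = ‖z ζ‖
    rw [lp.norm_single (by norm_num)]
  rwa [h2] at h1

/-- normal states -/
theorem state_small {M : VonNeumannAlgebra H} {φ : (H →L[ℂ] H) → ℂ} (hφ : IsNormalState M φ)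
    (hf : IsFaithful M φ) {ω : (H →L[ℂ] H) → ℂ} (hω : IsNormalState M ω) (C : ℝ) {ε : ℝ}
    (hε : 0 < ε) :
    ∃ η > 0, ∀ z ∈ M, ‖z‖ ≤ C → ‖φ (star z * z)‖ ≤ η → ‖ω z‖ ≤ ε := by
  obtain ⟨g, hg1, hg⟩ := hω
  let v : EllTwo H := ⟨g, (memℓp_two_iff g).2 hg1.summable⟩
  have hv1 : ‖v‖ = 1 := by
    have h1 : ‖v‖ ^ 2 = 1 := (L2_norm_sq v).unique hg1
    have h2 := norm_nonneg v
    nlinarith
  obtain ⟨η, hη, h⟩ := amp_small hφ hf v C hε
  refine ⟨η, hη, fun z hz hzC hzη => ?_⟩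
  have h1 : ω z = ⟪v, amp z v⟫_ℂ :=
    ((lp.hasSum_inner (𝕜 := ℂ) v (amp z v)).unique (hg z hz)).symm
  rw [h1]
  refine (norm_inner_le_norm _ _).trans ?_
  rw [hv1, one_mul]
  exact h z hz hzC hzη

end Vale.Agent.P132
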