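import Vale.Agent.P132.Bd8.B6

/-!
# P132: averaging over unitaries almost commuting with the state, in the standard representation
-/

open Filter Topology
open scoped ComplexConjugate InnerProductSpace BoundedContinuousFunction

namespace Vale.Agent.P132

universe u

variable {H : Type u} [NormedAddCommGroup H] [InnerProductSpace ℂ H] [CompleteSpace H]

namespace ModData

set_option linter.unusedSectionVars false

variable {M : VonNeumannAlgebra H} {ξ : H} (D : ModData M ξ) {ι : Type} [Fintype ι]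

/-- the conjugates of the family `x` by unitaries almost commuting with `ξ` -/
def cjS (x : ι → H →L[ℂ] H) (δ : ℝ) : Set (PiLp 2 (fun _ : ι => H)) :=
  {v | ∃ u ∈ M, u ∈ unitary (H →L[ℂ] H) ∧ ‖D.cm u ξ‖ ≤ δ ∧ ∀ j, v j = u (x j (star u ξ))}

/-- the closed convex hull of `cjS` -/
def cjK (x : ι → H →L[ℂ] H) (δ : ℝ) : Set (PiLp 2 (fun _ : ι => H)) :=
  closure (convexHull ℝ (D.cjS x δ))

theorem cm_one_xi : D.cm 1 ξ = 0 := by
  simp [cm]

theorem self_mem_cjS (x : ι → H →L[ℂ] H) {δ : ℝ} (hδ : 0 ≤ δ) :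
    (WithLp.toLp 2 fun j => x j ξ) ∈ D.cjS x δ := by
  refine ⟨1, one_mem M, one_mem _, ?_, fun j => ?_⟩
  · rw [D.cm_one_xi, norm_zero]; exact hδ
  · simp

theorem cjK_nonempty (x : ι → H →L[ℂ] H) {δ : ℝ} (hδ : 0 ≤ δ) : (D.cjK x δ).Nonempty :=
  ⟨_, subset_closure (subset_convexHull ℝ _ (D.self_mem_cjS x hδ))⟩

theorem cjK_convex (x : ι → H →L[ℂ] H) (δ : ℝ) : Convex ℝ (D.cjK x δ) :=
  (convex_convexHull ℝ _).closure

theorem cjK_closed (x : ι → H →L[ℂ] H) (δ : ℝ) : IsClosed (D.cjK x δ) := isClosed_closure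

theorem cjK_mono (x : ι → H →L[ℂ] H) {δ δ' : ℝ} (h : δ ≤ δ') : D.cjK x δ ⊆ D.cjK x δ' := by
  apply closure_mono
  apply convexHull_mono
  rintro v ⟨u, h1, h2, h3, h4⟩
  exact ⟨u, h1, h2, h3.trans h, h4⟩

theorem cjK_induct {x : ι → H →L[ℂ] H} {δ : ℝ} {P : PiLp 2 (fun _ : ι => H) → Prop}
    (hS : ∀ v ∈ D.cjS x δ, P v) (hc : Convex ℝ {v | P v}) (hcl : IsClosed {v | P v})
    {v : PiLp 2 (fun _ : ι => H)} (hv : v ∈ D.cjK x δ) : P v :=
  closure_minimal (convexHull_min hS hc) hcl hv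

/-- elements of the closed convex hull come from elements of `M` -/
theorem cjK_exists {x : ι → H →L[ℂ] H} (hx : ∀ j, x j ∈ M) {δ : ℝ}
    {v : PiLp 2 (fun _ : ι => H)} (hv : v ∈ D.cjK x δ) (j : ι) :
    ∃ a ∈ M, ‖a‖ ≤ ‖x j‖ ∧ v j = a ξ := by
  refine D.cjK_induct (P := fun v => ∃ a ∈ M, ‖a‖ ≤ ‖x j‖ ∧ v j = a ξ) ?_ ?_ ?_ hv
  · rintro v ⟨u, h1, h2, h3, h4⟩
    refine ⟨u * x j * star u, mul_mem (mul_mem h1 (hx j)) (star_mem h1), ?_, h4 j⟩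
    have hu := norm_unitary_le_one h2
    have hu' : ‖star u‖ ≤ 1 := norm_unitary_le_one (star_mem_unitary h2)
    calc ‖u * x j * star u‖ ≤ ‖u‖ * ‖x j‖ * ‖star u‖ :=
          (norm_mul_le _ _).trans (mul_le_mul_of_nonneg_right (norm_mul_le _ _) (norm_nonneg _))
      _ ≤ 1 * ‖x j‖ * 1 := by gcongr
      _ = ‖x j‖ := by ring
  · rintro v ⟨a, ha, ha1, ha2⟩ w ⟨b, hb, hb1, hb2⟩ s t hs ht hst
    refine ⟨(s : ℂ) • a + (t : ℂ) • b, add_mem (M.toStarSubalgebra.smul_mem ha _)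
      (M.toStarSubalgebra.smul_mem hb _), ?_, ?_⟩
    · calc ‖(s : ℂ) • a + (t : ℂ) • b‖ ≤ ‖(s : ℂ) • a‖ + ‖(t : ℂ) • b‖ := norm_add_le _ _
        _ = s * ‖a‖ + t * ‖b‖ := by
          rw [norm_smul, norm_smul, Complex.norm_real, Complex.norm_real,
            Real.norm_of_nonneg hs, Real.norm_of_nonneg ht]
        _ ≤ s * ‖x j‖ + t * ‖x j‖ := by gcongr
        _ = ‖x j‖ := by rw [← add_mul, hst, one_mul]
    · have e : (s • v + t • w) j = s • v j + t • w j := rfl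
      rw [e, ha2, hb2]
      simp
  · rw [← isSeqClosed_iff_isClosed]
    intro f g hf hg
    choose a ha ha1 ha2 using hf
    have h1 : Tendsto (fun n => a n ξ) atTop (𝓝 (g j)) := by
      have h2 : Tendsto (fun n => f n j) atTop (𝓝 (g j)) :=
        ((PiLp.continuous_apply 2 (fun _ : ι => H) j).tendsto g).comp hg
      refine h2.congr fun n => ha2 n
    obtain ⟨b, hb, hb1, hb2, -⟩ := D.exists_strong_limit a ha ‖x j‖ ha1 _ h1
    exact ⟨b, hb, hb2, hb1.symm⟩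

/-- the conjugation `v ↦ (w v_j w*)_j` -/
noncomputable def AdP (w : H →L[ℂ] H) (v : PiLp 2 (fun _ : ι => H)) : PiLp 2 (fun _ : ι => H) :=
  WithLp.toLp 2 fun j => D.Ad w (v j)

theorem AdP_apply (w : H →L[ℂ] H) (v : PiLp 2 (fun _ : ι => H)) (j : ι) :
    D.AdP w v j = D.Ad w (v j) := rfl

theorem norm_AdP {w : H →L[ℂ] H} (hw : w ∈ unitary (H →L[ℂ] H)) (v : PiLp 2 (fun _ : ι => H)) :
    ‖D.AdP w v‖ = ‖v‖ := by
  rw [PiLp.norm_eq_of_L2, PiLp.norm_eq_of_L2]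
  congr 1
  refine Finset.sum_congr rfl fun j _ => ?_
  rw [D.AdP_apply, D.norm_Ad (Unitary.mem_iff.1 hw).1]

theorem AdP_sub (w : H →L[ℂ] H) (v v' : PiLp 2 (fun _ : ι => H)) :
    D.AdP w v - D.AdP w v' = D.AdP w (v - v') := by
  ext j
  show D.Ad w (v j) - D.Ad w (v' j) = D.Ad w (v j - v' j)
  rw [map_sub]

theorem AdP_comb (w : H →L[ℂ] H) (v v' : PiLp 2 (fun _ : ι => H)) (s t : ℝ) :
    D.AdP w (s • v + t • v') = s • D.AdP w v + t • D.AdP w v' := by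
  ext j
  show D.Ad w (s • v j + t • v' j) = s • D.Ad w (v j) + t • D.Ad w (v' j)
  rw [map_add]
  congr 1
  · exact ((D.Ad w).toLinearMap.restrictScalars ℝ).map_smul s (v j)
  · exact ((D.Ad w).toLinearMap.restrictScalars ℝ).map_smul t (v' j)

omit [CompleteSpace H] in
theorem pilp_norm_le_sum (v : PiLp 2 (fun _ : ι => H)) : ‖v‖ ≤ ∑ j, ‖v j‖ := by
  rw [PiLp.norm_eq_of_L2]
  apply Real.sqrt_le_iff.2
  exact ⟨Finset.sum_nonneg fun j _ => norm_nonneg _,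
    Finset.sum_sq_le_sq_sum_of_nonneg fun j _ => norm_nonneg _⟩

theorem Ad_conj_apply {x u w : H →L[ℂ] H} (hx : x ∈ M) (hu : u ∈ M) (hw : w ∈ M) :
    D.Ad w (u (x (star u ξ))) = (w * u) (x (star (w * u) ξ)) -
      w (u (x (star u (D.cm (star w) ξ)))) := by
  have h1 : D.Rm (star w) (u (x (star u ξ))) = u (x (star u (D.Rm (star w) ξ))) := by
    rw [D.comm_Rm (star_mem hu) (star_mem hw), D.comm_Rm hx (star_mem hw),
      D.comm_Rm hu (star_mem hw)]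
  rw [D.Ad_apply, h1]
  have h2 : star (w * u) ξ = star u (star w ξ) := by rw [star_mul]; rfl
  have h3 : D.Rm (star w) ξ = star w ξ - D.cm (star w) ξ := by rw [cm]; abel
  rw [h2, h3]
  simp only [map_sub]
  rfl

/-- conjugation by `w` almost preserves the closed convex hulls -/
theorem cjK_conj {x : ι → H →L[ℂ] H} (hx : ∀ j, x j ∈ M) {δ δ' : ℝ} {w : H →L[ℂ] H} (hw : w ∈ M)
    (hwu : w ∈ unitary (H →L[ℂ] H)) (hwδ : ‖D.cm w ξ‖ ≤ δ')
    {v : PiLp 2 (fun _ : ι => H)} (hv : v ∈ D.cjK x δ) {η : ℝ} (hη : 0 < η) :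
    ∃ v' ∈ D.cjK x (δ + δ'), ‖D.AdP w v - v'‖ ≤ (∑ j, ‖x j‖) * δ' + η := by
  have key : ∀ v ∈ convexHull ℝ (D.cjS x δ),
      ∃ v' ∈ D.cjK x (δ + δ'), ‖D.AdP w v - v'‖ ≤ (∑ j, ‖x j‖) * δ' := by
    intro v hv
    have h0 : convexHull ℝ (D.cjS x δ) ⊆
        {v | ∃ v' ∈ D.cjK x (δ + δ'), ‖D.AdP w v - v'‖ ≤ (∑ j, ‖x j‖) * δ'} := by
      refine convexHull_min ?_ ?_
      · rintro v ⟨u, h1, h2, h3, h4⟩
        have hwuU : w * u ∈ unitary (H →L[ℂ] H) := mul_mem hwu h2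
        refine ⟨WithLp.toLp 2 fun j => (w * u) (x j (star (w * u) ξ)),
          subset_closure (subset_convexHull ℝ _
            ⟨w * u, mul_mem hw h1, hwuU, ?_, fun j => rfl⟩), ?_⟩
        · rw [D.cm_mul' hw h1]
          refine (norm_add_le _ _).trans ?_
          rw [norm_unitary_apply hwu, norm_unitary_apply (D.Rm_mem_unitary h2)]
          linarith
        · refine (pilp_norm_le_sum _).trans ?_
          rw [Finset.sum_mul]
          refine Finset.sum_le_sum fun j _ => ?_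
          have e : (D.AdP w v - WithLp.toLp 2 fun j => (w * u) (x j (star (w * u) ξ))) j =
              - w (u (x j (star u (D.cm (star w) ξ)))) := by
            show D.Ad w (v j) - (w * u) (x j (star (w * u) ξ)) = _
            rw [h4 j, D.Ad_conj_apply (hx j) h1 hw]
            abel
          rw [e, norm_neg, norm_unitary_apply hwu, norm_unitary_apply h2]
          refine ((x j).le_opNorm _).trans ?_
          rw [norm_unitary_apply (star_mem_unitary h2), D.norm_cm_star_xi]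
          exact mul_le_mul_of_nonneg_left hwδ (norm_nonneg _)
      · rintro v ⟨v', hv', h1⟩ z ⟨z', hz', h2⟩ s t hs ht hst
        refine ⟨s • v' + t • z', D.cjK_convex x _ hv' hz' hs ht hst, ?_⟩
        rw [D.AdP_comb]
        have e : s • D.AdP w v + t • D.AdP w z - (s • v' + t • z') =
            s • (D.AdP w v - v') + t • (D.AdP w z - z') := by module
        rw [e]
        refine (norm_add_le _ _).trans ?_
        rw [norm_smul, norm_smul, Real.norm_of_nonneg hs, Real.norm_of_nonneg ht]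
        calc s * ‖D.AdP w v - v'‖ + t * ‖D.AdP w z - z'‖
            ≤ s * ((∑ j, ‖x j‖) * δ') + t * ((∑ j, ‖x j‖) * δ') := by gcongr
          _ = (∑ j, ‖x j‖) * δ' := by rw [← add_mul, hst, one_mul]
    exact h0 hv
  obtain ⟨v₀, hv₀, hd⟩ := Metric.mem_closure_iff.1 hv η hη
  obtain ⟨v', hv', h1⟩ := key v₀ hv₀
  refine ⟨v', hv', ?_⟩
  have e : D.AdP w v - v' = D.AdP w (v - v₀) + (D.AdP w v₀ - v') := by
    rw [← D.AdP_sub]; abel
  rw [e]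
  refine (norm_add_le _ _).trans ?_
  rw [D.norm_AdP hwu, ← dist_eq_norm]
  linarith

/-- the state is almost constant on the closed convex hull -/
theorem cjK_state {x : ι → H →L[ℂ] H} (hx : ∀ j, x j ∈ M) {δ : ℝ}
    {v : PiLp 2 (fun _ : ι => H)} (hv : v ∈ D.cjK x δ) (j : ι) :
    ‖⟪ξ, v j⟫_ℂ - ⟪ξ, x j ξ⟫_ℂ‖ ≤ 2 * ‖x j‖ * δ := by
  refine D.cjK_induct (P := fun v => ‖⟪ξ, v j⟫_ℂ - ⟪ξ, x j ξ⟫_ℂ‖ ≤ 2 * ‖x j‖ * δ) ?_ ?_ ?_ hv
  · rintro v ⟨u, h1, h2, h3, h4⟩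
    have h5 : ‖D.cm (star u) ξ‖ ≤ δ := by rw [D.norm_cm_star_xi]; exact h3
    have hs := star_mem_unitary h2
    have e1 : star u ξ = D.Rm (star u) ξ + D.cm (star u) ξ := by rw [cm]; abel
    have e2 : ⟪ξ, v j⟫_ℂ = ⟪star u ξ, x j (star u ξ)⟫_ℂ := by
      rw [h4 j, BC.inner_star]
    have e3 : ⟪D.Rm (star u) ξ, x j (D.Rm (star u) ξ)⟫_ℂ = ⟪ξ, x j ξ⟫_ℂ := by
      rw [D.comm_Rm (hx j) (star_mem h1)]
      have h6 : star (D.Rm (star u)) (D.Rm (star u) (x j ξ)) = x j ξ :=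
        unitary_star_apply (D.Rm_mem_unitary hs) _
      rw [← BC.inner_star', h6]
    have e4 : ⟪ξ, v j⟫_ℂ - ⟪ξ, x j ξ⟫_ℂ = ⟪D.Rm (star u) ξ, x j (D.cm (star u) ξ)⟫_ℂ +
        ⟪D.cm (star u) ξ, x j (star u ξ)⟫_ℂ := by
      rw [e2, ← e3]
      have e5 : ⟪star u ξ, x j (star u ξ)⟫_ℂ = ⟪D.Rm (star u) ξ, x j (star u ξ)⟫_ℂ +
          ⟪D.cm (star u) ξ, x j (star u ξ)⟫_ℂ := by
        rw [← inner_add_left, ← e1]
      have e6 : ⟪D.Rm (star u) ξ, x j (star u ξ)⟫_ℂ =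
          ⟪D.Rm (star u) ξ, x j (D.Rm (star u) ξ)⟫_ℂ +
          ⟪D.Rm (star u) ξ, x j (D.cm (star u) ξ)⟫_ℂ := by
        rw [← inner_add_right, ← map_add, ← e1]
      rw [e5, e6]; ring
    show ‖⟪ξ, v j⟫_ℂ - ⟪ξ, x j ξ⟫_ℂ‖ ≤ 2 * ‖x j‖ * δ
    rw [e4]
    refine (norm_add_le _ _).trans ?_
    have b1 : ‖⟪D.Rm (star u) ξ, x j (D.cm (star u) ξ)⟫_ℂ‖ ≤ ‖x j‖ * δ := by
      refine (norm_inner_le_norm _ _).trans ?_
      rw [norm_unitary_apply (D.Rm_mem_unitary hs), D.norm_xi, one_mul]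
      exact ((x j).le_opNorm _).trans (mul_le_mul_of_nonneg_left h5 (norm_nonneg _))
    have b2 : ‖⟪D.cm (star u) ξ, x j (star u ξ)⟫_ℂ‖ ≤ δ * ‖x j‖ := by
      refine (norm_inner_le_norm _ _).trans ?_
      refine mul_le_mul h5 ?_ (norm_nonneg _) ((norm_nonneg _).trans h5)
      refine ((x j).le_opNorm _).trans ?_
      rw [norm_unitary_apply hs, D.norm_xi, mul_one]
    linarith
  · rintro v h1 w h2 s t hs ht hst
    change ‖⟪ξ, v j⟫_ℂ - ⟪ξ, x j ξ⟫_ℂ‖ ≤ 2 * ‖x j‖ * δ at h1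
    change ‖⟪ξ, w j⟫_ℂ - ⟪ξ, x j ξ⟫_ℂ‖ ≤ 2 * ‖x j‖ * δ at h2
    change ‖⟪ξ, (s • v + t • w) j⟫_ℂ - ⟪ξ, x j ξ⟫_ℂ‖ ≤ 2 * ‖x j‖ * δ
    have e : ⟪ξ, (s • v + t • w) j⟫_ℂ - ⟪ξ, x j ξ⟫_ℂ =
        (s : ℂ) * (⟪ξ, v j⟫_ℂ - ⟪ξ, x j ξ⟫_ℂ) + (t : ℂ) * (⟪ξ, w j⟫_ℂ - ⟪ξ, x j ξ⟫_ℂ) := by
      have e1 : (s • v + t • w) j = (s : ℂ) • v j + (t : ℂ) • w j := by
        show s • v j + t • w j = _
        simp
      rw [e1, inner_add_right, inner_smul_right, inner_smul_right]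
      have e2 : (s : ℂ) + t = 1 := by exact_mod_cast hst
      linear_combination (⟪ξ, x j ξ⟫_ℂ) * e2
    rw [e]
    refine (norm_add_le _ _).trans ?_
    rw [norm_mul, norm_mul, Complex.norm_real, Complex.norm_real, Real.norm_of_nonneg hs,
      Real.norm_of_nonneg ht]
    calc s * ‖⟪ξ, v j⟫_ℂ - ⟪ξ, x j ξ⟫_ℂ‖ + t * ‖⟪ξ, w j⟫_ℂ - ⟪ξ, x j ξ⟫_ℂ‖
        ≤ s * (2 * ‖x j‖ * δ) + t * (2 * ‖x j‖ * δ) := by gcongr
      _ = 2 * ‖x j‖ * δ := by rw [← add_mul, hst, one_mul]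
  · apply isClosed_le _ continuous_const
    have hc : Continuous fun v : PiLp 2 (fun _ : ι => H) => v j :=
      PiLp.continuous_apply 2 (fun _ : ι => H) j
    fun_prop

/-- there is a vector in all the closed convex hulls which is almost fixed by conjugation by
unitaries almost commuting with `ξ` -/
theorem exists_almost_fixed {x : ι → H →L[ℂ] H} (hx : ∀ j, x j ∈ M) :
    ∃ v : PiLp 2 (fun _ : ι => H), (∀ δ > 0, v ∈ D.cjK x δ) ∧
      ∀ ε > 0, ∃ δ > 0, ∀ w ∈ M, w ∈ unitary (H →L[ℂ] H) → ‖D.cm w ξ‖ ≤ δ →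
        ‖D.AdP w v - v‖ ≤ ε := by
  have hpos : ∀ n : ℕ, (0 : ℝ) < 1 / ((n : ℝ) + 1) := fun n => by positivity
  -- nearest points to the origin
  have hnear : ∀ n : ℕ, ∃ v ∈ D.cjK x (1 / ((n : ℝ) + 1)), ∀ w ∈ D.cjK x (1 / ((n : ℝ) + 1)),
      ‖v‖ ^ 2 ≤ (⟪v, w⟫_ℂ).re := by
    intro n
    obtain ⟨v, hv, h⟩ := exists_nearest (D.cjK_nonempty x (hpos n).le) (D.cjK_closed x _)
      (by
        intro y hy z hz s t hs ht hst
        have := D.cjK_convex x _ hy hz hs ht hst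
        have e : (s : ℂ) • y + (t : ℂ) • z = s • y + t • z := by simp
        rw [e]; exact this) (0 : PiLp 2 (fun _ : ι => H))
    refine ⟨v, hv, fun w hw => ?_⟩
    have h1 := h w hw
    rw [zero_sub, inner_neg_left, inner_sub_right, Complex.neg_re, Complex.sub_re] at h1
    have h2 : (⟪v, v⟫_ℂ).re = ‖v‖ ^ 2 := by
      have := inner_self_eq_norm_sq (𝕜 := ℂ) v
      simpa using this
    linarith
  choose v hv hmin using hnear
  have hsub : ∀ {m n : ℕ}, n ≤ m → D.cjK x (1 / ((m : ℝ) + 1)) ⊆ D.cjK x (1 / ((n : ℝ) + 1)) := by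
    intro m n h
    apply D.cjK_mono
    have : (n : ℝ) ≤ m := by exact_mod_cast h
    gcongr
  have hle : ∀ n : ℕ, ∀ w ∈ D.cjK x (1 / ((n : ℝ) + 1)), ‖v n‖ ≤ ‖w‖ := by
    intro n w hw
    have h1 := hmin n w hw
    have h2 : (⟪v n, w⟫_ℂ).re ≤ ‖v n‖ * ‖w‖ :=
      (Complex.re_le_norm _).trans (norm_inner_le_norm _ _)
    rcases (norm_nonneg (v n)).eq_or_lt with h3 | h3
    · rw [← h3]; exact norm_nonneg _
    · have h4 : ‖v n‖ * ‖v n‖ ≤ ‖v n‖ * ‖w‖ := by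
        calc ‖v n‖ * ‖v n‖ = ‖v n‖ ^ 2 := by ring
          _ ≤ _ := h1.trans h2
      exact le_of_mul_le_mul_left h4 h3
  have hdiff : ∀ {m n : ℕ}, n ≤ m → ‖v m - v n‖ ^ 2 ≤ ‖v m‖ ^ 2 - ‖v n‖ ^ 2 := by
    intro m n h
    have h1 := hmin n (v m) (hsub h (hv m))
    have h2 := @norm_sub_sq ℂ _ _ _ _ (v m) (v n)
    have h3 : RCLike.re ⟪v m, v n⟫_ℂ = (⟪v n, v m⟫_ℂ).re := by
      rw [inner_re_symm (v m) (v n)]; rfl
    rw [h3] at h2
    linarith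
  have hX : ∀ n : ℕ, (WithLp.toLp 2 fun j => x j ξ : PiLp 2 (fun _ : ι => H)) ∈
      D.cjK x (1 / ((n : ℝ) + 1)) := fun n =>
    subset_closure (subset_convexHull ℝ _ (D.self_mem_cjS x (hpos n).le))
  set X : PiLp 2 (fun _ : ι => H) := WithLp.toLp 2 fun j => x j ξ with hXdef
  have hbdd : BddAbove (Set.range fun n => ‖v n‖ ^ 2) := by
    refine ⟨‖X‖ ^ 2, ?_⟩
    rintro _ ⟨n, rfl⟩
    exact pow_le_pow_left₀ (norm_nonneg _) (hle n X (hX n)) 2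
  have hcau : CauchySeq v := by
    rw [Metric.cauchySeq_iff']
    intro ε hε
    obtain ⟨N, hN⟩ := exists_lt_of_lt_ciSup
      (show (⨆ n, ‖v n‖ ^ 2) - ε ^ 2 < ⨆ n, ‖v n‖ ^ 2 by
        have : 0 < ε ^ 2 := by positivity
        linarith)
    refine ⟨N, fun n hn => ?_⟩
    rw [dist_eq_norm]
    have h1 := hdiff hn
    have h2 := le_ciSup hbdd n
    have h3 : ‖v n - v N‖ ^ 2 < ε ^ 2 := by
      have h4 : ‖v n‖ ^ 2 ≤ ⨆ n, ‖v n‖ ^ 2 := h2
      linarith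
    exact (pow_lt_pow_iff_left₀ (norm_nonneg _) hε.le two_ne_zero).1 h3
  obtain ⟨V, hV⟩ := cauchySeq_tendsto_of_complete hcau
  have hVn : ∀ n : ℕ, V ∈ D.cjK x (1 / ((n : ℝ) + 1)) := fun n =>
    (D.cjK_closed x _).mem_of_tendsto hV (by
      filter_upwards [eventually_ge_atTop n] with m hm using hsub hm (hv m))
  have hVδ : ∀ δ > 0, V ∈ D.cjK x δ := by
    intro δ hδ
    obtain ⟨n, hn⟩ := exists_nat_one_div_lt hδ
    exact D.cjK_mono x hn.le (hVn n)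
  refine ⟨V, hVδ, fun ε hε => ?_⟩
  set C : ℝ := ∑ j, ‖x j‖ with hC
  have hC0 : 0 ≤ C := Finset.sum_nonneg fun j _ => norm_nonneg _
  set η : ℝ := ε ^ 2 / (16 * (‖V‖ + 1)) with hη
  have hη0 : 0 < η := by positivity
  have h1 : ∀ᶠ n in atTop, ‖V‖ - η < ‖v n‖ := by
    have := hV.norm
    exact this.eventually (lt_mem_nhds (by linarith))
  have h2 : ∀ᶠ n : ℕ in atTop, 1 / ((n : ℝ) + 1) < η / (C + 1) :=
    tendsto_one_div_add_atTop_nhds_zero_nat.eventually (gt_mem_nhds (by positivity))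
  obtain ⟨n, hn1, hn2⟩ := (h1.and h2).exists
  set δ₁ : ℝ := 1 / ((n : ℝ) + 1) with hδ₁
  have hδ₁0 : 0 < δ₁ := hpos n
  refine ⟨δ₁ / 2, by positivity, fun w hw hwu hwδ => ?_⟩
  obtain ⟨V', hV', h3⟩ := D.cjK_conj hx hw hwu hwδ (hVδ (δ₁ / 2) (by positivity)) hη0
  rw [add_halves] at hV'
  have h4 : (2⁻¹ : ℝ) • V + (2⁻¹ : ℝ) • V' ∈ D.cjK x δ₁ :=
    D.cjK_convex x _ (hVn n) hV' (by norm_num) (by norm_num) (by norm_num)
  have h5 := hle n _ h4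
  have h6 : C * (δ₁ / 2) ≤ η := by
    have h7 : δ₁ * (C + 1) ≤ η := by
      rw [lt_div_iff₀ (by positivity)] at hn2
      exact hn2.le
    nlinarith
  have h7 : 2 * (‖V‖ - 2 * η) ≤ ‖V + D.AdP w V‖ := by
    have e : (2⁻¹ : ℝ) • V + (2⁻¹ : ℝ) • V' =
        (2⁻¹ : ℝ) • ((V + D.AdP w V) - (D.AdP w V - V')) := by module
    rw [e, norm_smul] at h5
    have h8 : ‖(V + D.AdP w V) - (D.AdP w V - V')‖ ≤ ‖V + D.AdP w V‖ + ‖D.AdP w V - V'‖ :=
      norm_sub_le _ _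
    have h9 : ‖(2⁻¹ : ℝ)‖ = 2⁻¹ := by norm_num
    rw [h9] at h5
    linarith
  have h8 : ‖D.AdP w V - V‖ ^ 2 = 4 * ‖V‖ ^ 2 - ‖V + D.AdP w V‖ ^ 2 := by
    have h9 := parallelogram_law_with_norm ℂ V (D.AdP w V)
    rw [D.norm_AdP hwu, norm_sub_rev V] at h9
    nlinarith
  have h9 : ‖D.AdP w V - V‖ ^ 2 ≤ 16 * η * ‖V‖ := by
    have hV0 := norm_nonneg V
    rcases le_total (2 * η) ‖V‖ with h10 | h10
    · have h11 : (2 * (‖V‖ - 2 * η)) ^ 2 ≤ ‖V + D.AdP w V‖ ^ 2 :=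
        pow_le_pow_left₀ (by linarith) h7 2
      nlinarith
    · have h11 : 0 ≤ ‖V + D.AdP w V‖ ^ 2 := by positivity
      nlinarith
  have h10 : 16 * η * ‖V‖ ≤ ε ^ 2 := by
    rw [hη]
    have h11 : 16 * (ε ^ 2 / (16 * (‖V‖ + 1))) * ‖V‖ = ε ^ 2 * (‖V‖ / (‖V‖ + 1)) := by
      field_simp
    rw [h11]
    have h12 : ‖V‖ / (‖V‖ + 1) ≤ 1 := by
      rw [div_le_one (by positivity)]
      linarith
    nlinarith [sq_nonneg ε]
  exact (pow_le_pow_iff_left₀ (norm_nonneg _) hε.le two_ne_zero).1 (h9.trans h10)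

/-- averaging to the state, in the closed convex hull -/
theorem state_mem_cjK (hcore : ∀ x, D.InN x → ∃ c : ℂ, x = c • 1) {x : ι → H →L[ℂ] H}
    (hx : ∀ j, x j ∈ M) {δ : ℝ} (hδ : 0 < δ) :
    (WithLp.toLp 2 fun j => ⟪ξ, x j ξ⟫_ℂ • ξ) ∈ D.cjK x δ := by
  obtain ⟨v, hv, hfix⟩ := D.exists_almost_fixed hx
  have hv1 : ∀ j, v j = ⟪ξ, x j ξ⟫_ℂ • ξ := by
    intro j
    obtain ⟨a, ha, -, hva⟩ := D.cjK_exists hx (hv 1 one_pos) j
    have hN : D.InN a := by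
      refine ⟨ha, fun ε hε => ?_⟩
      obtain ⟨δ₀, hδ₀, h⟩ := hfix (ε / 2) (by positivity)
      refine ⟨min δ₀ (ε / (2 * (‖a‖ + 1))), lt_min hδ₀ (by positivity), fun u hu huu hud => ?_⟩
      have h1 := h u hu huu (hud.trans (min_le_left _ _))
      have h2 : ‖D.Ad u (v j) - v j‖ ≤ ε / 2 := by
        have h3 := PiLp.norm_apply_le (D.AdP u v - v) j
        exact h3.trans h1
      rw [D.norm_Ad_sub hu (Unitary.mem_iff.1 huu).1 (Unitary.mem_iff.1 huu).2, hva] at h2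
      have h3 : a (u ξ) - u (a ξ) = a (D.cm u ξ) - D.cm u (a ξ) := by
        rw [cm, cm, map_sub, D.comm_Rm ha hu]
        abel
      rw [h3]
      refine (norm_sub_le _ _).trans ?_
      have h4 : ‖a (D.cm u ξ)‖ ≤ ε / 2 := by
        refine (a.le_opNorm _).trans ?_
        calc ‖a‖ * ‖D.cm u ξ‖ ≤ (‖a‖ + 1) * (ε / (2 * (‖a‖ + 1))) := by
              gcongr
              · linarith
              · exact hud.trans (min_le_right _ _)
          _ = ε / 2 := by field_simp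
      linarith
    obtain ⟨c, hc⟩ := hcore a hN
    have hcv : v j = c • ξ := by rw [hva, hc]; rfl
    have h5 : ⟪ξ, v j⟫_ℂ = c := by
      rw [hcv, inner_smul_right, inner_self_eq_norm_sq_to_K, D.norm_xi]; simp
    have h6 : ∀ δ > 0, ‖c - ⟪ξ, x j ξ⟫_ℂ‖ ≤ 2 * ‖x j‖ * δ := by
      intro δ hδ
      rw [← h5]
      exact D.cjK_state hx (hv δ hδ) j
    have h7 : ‖c - ⟪ξ, x j ξ⟫_ℂ‖ ≤ 0 := by
      refine le_of_forall_pos_le_add fun ε hε => ?_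
      have h8 := h6 (ε / (2 * ‖x j‖ + 1)) (by positivity)
      refine h8.trans ?_
      rw [zero_add, mul_div_assoc', div_le_iff₀ (by positivity)]
      nlinarith [norm_nonneg (x j)]
    have h8 : c = ⟪ξ, x j ξ⟫_ℂ := sub_eq_zero.1 (norm_le_zero_iff.1 h7)
    rw [hcv, h8]
  have e : v = (WithLp.toLp 2 fun j => ⟪ξ, x j ξ⟫_ℂ • ξ) := by
    ext j
    exact hv1 j
  rw [← e]
  exact hv δ hδ

/-- **Averaging theorem in the standard representation.** -/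
theorem exists_averaging (hcore : ∀ x, D.InN x → ∃ c : ℂ, x = c • 1) {x : ι → H →L[ℂ] H}
    (hx : ∀ j, x j ∈ M) {δ ε : ℝ} (hδ : 0 < δ) (hε : 0 < ε) :
    ∃ (n : ℕ) (c : Fin n → ℝ) (u : Fin n → (H →L[ℂ] H)), (∀ i, 0 ≤ c i) ∧ ∑ i, c i = 1 ∧
      (∀ i, u i ∈ M ∧ u i ∈ unitary (H →L[ℂ] H) ∧ ‖D.cm (u i) ξ‖ ≤ δ) ∧
      ∀ j, ‖(∑ i, (c i : ℂ) • (u i * x j * star (u i))) ξ - ⟪ξ, x j ξ⟫_ℂ • ξ‖ ≤ ε := by
  obtain ⟨z, hz, hd⟩ := Metric.mem_closure_iff.1 (D.state_mem_cjK hcore hx hδ) ε hε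
  obtain ⟨κ, _, c, s, hc0, hc1, hs, hsum⟩ := mem_convexHull_iff_exists_fintype.1 hz
  choose u hu1 hu2 hu3 hu4 using hs
  let e := (Fintype.equivFin κ).symm
  refine ⟨Fintype.card κ, fun i => c (e i), fun i => u (e i), fun i => hc0 _, ?_,
    fun i => ⟨hu1 _, hu2 _, hu3 _⟩, fun j => ?_⟩
  · rw [← hc1]
    exact Equiv.sum_comp e c
  · have h1 : (∑ i, (c (e i) : ℂ) • (u (e i) * x j * star (u (e i)))) ξ = z j := by
      have h2 := Equiv.sum_comp e fun k => (c k : ℂ) • (u k * x j * star (u k))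
      rw [h2, ← hsum, sum_apply]
      have h3 : (∑ i, c i • s i) j = ∑ i, (c i • s i) j := by
        simp
      rw [h3]
      refine Finset.sum_congr rfl fun k _ => ?_
      show (c k : ℂ) • (u k (x j (star (u k) ξ))) = c k • (s k j)
      rw [hu4 k j]
      simp
    rw [h1, norm_sub_rev]
    have h2 := PiLp.norm_apply_le ((WithLp.toLp 2 fun j => ⟪ξ, x j ξ⟫_ℂ • ξ) - z) j
    refine h2.trans ?_
    rw [← dist_eq_norm]
    exact hd.le

end ModData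

end Vale.Agent.P132
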